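import Crest.Agent.N325.Sg.Defs
import Crest.Agent.N325.Pc.Hard
import Crest.Agent.N325.Pc.Root

/-! Row 325 (helper86): marks, publication and withdrawal of objects. -/

set_option autoImplicit false
open Finset

namespace Crest.Agent.N325.Sg

open Tw Lt

variable {g : Gl} {P : Pm} {K : ℕ} {c : Bd} {G0 : Gr} {X : Fx}

theorem FxOk.wf (hX : FxOk P c G0 X) : Pc.Fo.WF X.T X.T.ord.toFinset (P.D + 2) :=
  Pc.wf_of_ok hX.ok fun e he => (hX.g0.2.2 e he).2.2.2.1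

theorem FxOk.nd_mem (hX : FxOk P c G0 X) {o : ℕ} (h : o / 2 < X.nO) : nd X.ob.get o ∈ X.T.ord := by
  have := hX.ok.obj _ (hX.ob _ h)
  unfold nd; split_ifs
  · exact this.2.1
  · exact this.2.2.1

theorem nd_even (ob : ℕ → Ob) (e : ℕ) : nd ob (2 * e) = (ob e).2.1 := by
  rw [nd, if_pos (by omega), show 2 * e / 2 = e by omega]

theorem nd_odd (ob : ℕ → Ob) (e : ℕ) : nd ob (2 * e + 1) = (ob e).2.2.1 := by
  rw [nd, if_neg (by omega), show (2 * e + 1) / 2 = e by omega]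

theorem sp_reVx (hX : FxOk P c G0 X) (rt : Arr ℕ) (l : List ℕ) (vx : Arr ℕ) :
    Sp g (reVx X rt l vx) fun r t => (∀ o, r.get o =
      if o / 2 < X.nO ∧ nd X.ob.get o ∈ l then rt.get (nd X.ob.get o) else vx.get o) ∧
      t ≤ l.length * (P.S + 2) + 1 := by
  refine (sp_foldL' (fun l' (a : Arr ℕ) => ∃ l0, l0 ++ l' = l ∧ ∀ o, a.get o =
      if o / 2 < X.nO ∧ nd X.ob.get o ∈ l0 then rt.get (nd X.ob.get o) else vx.get o)
    (fun _ => P.S + 1) (fun y l' a ⟨l0, e, k⟩ => (sp_setAllP _ _ _).mono fun r t k' =>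
      ⟨⟨l0 ++ [y], by simp [← e], fun o => ?_⟩, ?_⟩) (l := l) (s := vx) ⟨[], rfl, by simp⟩).mono
    fun r t ⟨⟨l0, e, k⟩, k'⟩ => ⟨by simpa [← e] using k, by
      simpa only [List.map_const', List.sum_replicate, smul_eq_mul] using k'⟩
  · rw [k'.1, k]
    simp only [(hX.en y).2, List.mem_append, List.mem_singleton]
    by_cases h1 : o / 2 < X.nO <;> by_cases h2 : nd X.ob.get o = y <;> simp [h1, h2]
  · have := (hX.en y).1; omega

theorem sp_mark (hX : FxOk P c G0 X) {xs : List ℕ} {pc : Pc.St} {vx : Arr ℕ}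
    (hI : PcOk X K pc) (hv : VxOk P X pc.rt vx) (hxs : ∀ x ∈ xs, x ∈ X.T.ord) :
    Sp g (mark X xs pc vx) fun r t => PcOk X K r.1.1 ∧ VxOk P X r.1.1.rt r.2.1 ∧
      Pc.Off X.T.ord.toFinset pc r.1.1 r.1.2 ∧ r.1.2.length ≤ (P.D + 3) * xs.length ∧
      (∀ y, pc.cut.get y = true → r.1.1.cut.get y = true) ∧ (∀ x ∈ xs, r.1.1.cut.get x = true) ∧
      (∀ y, pc.Vt y → r.1.1.Vt y) ∧ Ds.Chg r.2.1.get vx.get r.2.2 ∧ (∀ y ∈ r.2.2, y ∈ X.T.ord) ∧
      r.2.2.length ≤ 2 * (P.D + 3) * xs.length ∧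
      t ≤ (P.D + 3) * xs.length * (K * (P.S + 2) + 20 * K + 60) + 30 := by
  obtain ⟨M, I⟩ := hI
  have hW := hX.wf
  refine (I.sp_hard [] hW fun x h => List.mem_toFinset.2 (hxs x h)).bind ?_
  rintro ⟨⟨s, o⟩, Y, T⟩ t1 ⟨k1, k2, k3, k4, ⟨n, k5, k6, k7⟩, k8, k9, k10, -, k11, k12, k13⟩
  dsimp only at k1 k2 k3 k4 k5 k6 k7 k8 k9 k10 k11 k12 ⊢
  rw [List.append_nil] at k5
  subst k5 k4
  have hr : ∀ o, o / 2 < X.nO → pc.rt.get (s.rt.get (nd X.ob.get o)) = pc.rt.get (nd X.ob.get o) ∧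
      (s.rt.get (nd X.ob.get o) = pc.rt.get (nd X.ob.get o) ∨ s.rt.get (nd X.ob.get o) ∈ Y ∧
        pc.rt.get (nd X.ob.get o) ∈ Y.map pc.rt.get) := fun o h =>
    I.p.refine' hW k8.p k9 (List.mem_toFinset.2 (hX.nd_mem h))
  have hn : ∀ o, o / 2 < X.nO → s.rt.get (nd X.ob.get o) ≠ P.nw 0 := fun o h e =>
    hX.ok.nw 0 (List.mem_toFinset.1 (e ▸ k8.p.rt_mem hW (List.mem_toFinset.2 (hX.nd_mem h))))
  refine (sp_foldL' (fun l' (a : Arr ℕ) => ∀ o, if o / 2 < X.nO then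
      a.get o = s.rt.get (nd X.ob.get o) ∨ ∃ x ∈ l', pc.bp.get x = pc.bp.get (nd X.ob.get o)
      else a.get o = P.nw 0) (fun _ => K * (P.S + 2) + 1)
    (fun x l' a k => (sp_reVx hX s.rt _ a).mono fun r t k' => ⟨fun o => ?_, ?_⟩) (l := Y) (s := vx)
    fun o => ?_).bind fun vx' t2 ⟨j1, j2⟩ => (sp_revAppL _ _).bind ?_
  · have := k o
    rw [k'.1]
    split_ifs at this ⊢ with h1 h2 h2
    · exact .inl rfl
    · refine this.imp id fun ⟨y, hy, e⟩ => ⟨y, (List.mem_cons.1 hy).resolve_left ?_, e⟩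
      rintro rfl
      exact h2 ⟨h1, (I.p.mem _ _).2 ⟨List.mem_toFinset.2 (hX.nd_mem h1), e.symm⟩⟩
    · exact absurd h2.1 h1
    · exact this
  · exact k'.2.trans (Nat.add_le_add_right (Nat.mul_le_mul_right _ (I.p.len_mem _)) _)
  · rw [hv o]
    split_ifs with h
    · refine (hr o h).2.imp Eq.symm fun k => ⟨_, k.1, ?_⟩
      rw [← k11]
      exact k8.p.bp_rt hW (List.mem_toFinset.2 (hX.nd_mem h))
    · rfl
  rintro _ _ ⟨rfl, rfl⟩
  have hv' : VxOk P X s.rt vx' := fun o => by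
    have := j1 o
    split_ifs at this ⊢
    · simpa using this
    · exact this
  refine ⟨⟨_, k8⟩, hv', k7, by rw [mul_comm]; exact k6.trans k2, fun y h => by simp [k9, h],
    fun x h => by simp [k9, k1, h], k10, ⟨fun o o' e => ?_, fun o e => ?_⟩, fun y h => ?_, ?_, ?_⟩
  · rw [hv' o, hv' o'] at e
    rw [hv o, hv o']
    split_ifs at e ⊢ with h1 h2 h2
    · rw [← (hr o h1).1, e, (hr o' h2).1]
    · exact absurd e (hn o h1)
    · exact absurd e.symm (hn o' h2)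
    · rfl
  · rw [hv' o, hv o] at e ⊢
    split_ifs at e ⊢ with h1
    · have k := (hr o h1).2.resolve_left e
      exact ⟨List.mem_append_left _ (List.mem_reverse.2 k.1), List.mem_append_right _ k.2⟩
    · exact absurd rfl e
  · rcases List.mem_append.1 h with h | h
    · exact List.mem_toFinset.1 (k3 y (List.mem_reverse.1 h))
    · obtain ⟨x, hx, rfl⟩ := List.mem_map.1 h
      exact List.mem_toFinset.1 (I.p.rt_mem hW (k3 x hx))
  · simp only [List.length_append, List.length_reverse, List.length_map]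
    nlinarith
  · simp only [List.map_const', List.sum_replicate, smul_eq_mul] at j2
    have := Nat.mul_le_mul_right (K * (P.S + 2) + 3) k2
    nlinarith [Nat.zero_le (xs.length * (P.D + 3) * K), Nat.zero_le (xs.length * (P.D + 3))]

theorem sp_pub1 (hX : FxOk P c G0 X) {fu o : ℕ} {og : Arr Bool} {w : Wo} (hfu : K < fu)
    (hl : o < X.nO ∧ og.get (X.ob.get o).1 = true) (hg : 3 * X.nO ≤ g.X)
    (hp : PcOk X K w.1.1) (hq : PubOk X og w.1.1 w.2.1) :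
    Sp g (pub1 X fu o w) fun r t => PcOk X K r.1.1 ∧ PubOk X og r.1.1 r.2.1 ∧
      (∃ n, r.1.2 = n ++ w.1.2 ∧ n.length ≤ 9 ∧ Pc.Off X.T.ord.toFinset w.1.1 r.1.1 n) ∧
      Pc.Same w.1.1 r.1.1 ∧ r.2.1 = w.2.1.set o true ∧ r.2.2 = (3 * o + 1) :: w.2.2 ∧
      t ≤ 30 * K + 33 := by
  obtain ⟨M, I⟩ := hp
  have hW := hX.wf
  obtain ⟨-, h1, h2, -, -, h3, -⟩ := hX.ok.obj _ (hX.ob _ hl.1)
  refine (Pc.sp_soft w.1.2 hW I (List.mem_toFinset.2 h1) hfu).bind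
    fun s1 t1 ⟨⟨n1, a1, a2, a3⟩, a4, a5, a6, a7⟩ =>
    (Pc.sp_soft s1.2 hW a4 (List.mem_toFinset.2 h2) hfu).bind
    fun s2 t2 ⟨⟨n2, b1, b2, b3⟩, b4, b5, b6, b7⟩ =>
    (Pc.sp_soft s2.2 hW b4 (List.mem_toFinset.2 h3) hfu).bind
    fun s3 t3 ⟨⟨n3, c1, c2, c3⟩, c4, c5, c6, c7⟩ => sp_bind.2 (sp_nat.2 ⟨by omega, ⟨M, c4⟩,
      fun o' h => ?_, ⟨n3 ++ (n2 ++ n1), by rw [c1, b1, a1]; simp, by simp; omega,
        (a3.trans b3).trans c3⟩, (a6.trans b6).trans c6, rfl, rfl, by omega⟩)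
  have v := ((a6.trans b6).trans c6).vt
  by_cases e : o' = o
  · subst e
    exact ⟨hl.1, hl.2, (b6.trans c6).vt _ a5, c6.vt _ b5, c5⟩
  · change (w.2.1.set o true).get o' = true at h
    rw [Arr.get_set_ne _ e] at h
    obtain ⟨j1, j2, j3, j4, j5⟩ := hq o' h
    exact ⟨j1, j2, v _ j3, v _ j4, v _ j5⟩

theorem sp_pubs (hX : FxOk P c G0 X) {fu : ℕ} {og : Arr Bool} {l : List ℕ} {w : Wo} (hfu : K < fu)
    (hl : ∀ o ∈ l, o < X.nO ∧ og.get (X.ob.get o).1 = true) (hg : 3 * X.nO ≤ g.X)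
    (hp : PcOk X K w.1.1) (hq : PubOk X og w.1.1 w.2.1) :
    Sp g (foldL (pub1 X fu) l w) fun r t => PcOk X K r.1.1 ∧ PubOk X og r.1.1 r.2.1 ∧
      (∃ n, r.1.2 = n ++ w.1.2 ∧ n.length ≤ 18 * l.length ∧
        Pc.Off X.T.ord.toFinset w.1.1 r.1.1 n) ∧
      r.1.1.cut = w.1.1.cut ∧ r.1.1.rt = w.1.1.rt ∧ (∀ y, w.1.1.Vt y → r.1.1.Vt y) ∧
      (∀ o, r.2.1.get o = true ↔ w.2.1.get o = true ∨ o ∈ l) ∧
      r.2.2 = (l.map fun o => 3 * o + 1).reverse ++ w.2.2 ∧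
      t ≤ l.length * (90 * K + 151) + 1 := by
  refine (sp_foldL' (fun l' (r : Wo) => ∃ l0, l0 ++ l' = l ∧ PcOk X K r.1.1 ∧
      PubOk X og r.1.1 r.2.1 ∧ (∃ n, r.1.2 = n ++ w.1.2 ∧ n.length ≤ 18 * l0.length ∧
        Pc.Off X.T.ord.toFinset w.1.1 r.1.1 n) ∧ Pc.Same w.1.1 r.1.1 ∧
      (∀ o, r.2.1.get o = true ↔ w.2.1.get o = true ∨ o ∈ l0) ∧
      r.2.2 = (l0.map fun o => 3 * o + 1).reverse ++ w.2.2) (fun _ => 90 * K + 150)
    (fun o l' r ⟨l0, e, k1, k2, ⟨n, k3, k4, k5⟩, k6, k7, k8⟩ =>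
      (sp_pub1 hX hfu (hl o (by simp [← e])) hg k1 k2).mono
        fun r' t ⟨j1, j2, ⟨n', j3, j4, j5⟩, j6, j7, j8, j9⟩ => ⟨⟨l0 ++ [o], by simp [← e], j1, j2,
          ⟨n' ++ n, by rw [j3, k3]; simp, by simp; omega, k5.trans j5⟩, k6.trans j6, fun o' => ?_,
          by rw [j8, k8]; simp⟩, by omega⟩)
    (l := l) (s := w) ⟨[], rfl, hp, hq, ⟨[], rfl, le_rfl, Pc.Off.refl _ _⟩, Pc.Same.refl _,
      by simp, rfl⟩).mono fun r t ⟨⟨l0, e, k1, k2, k3, k4, k5, k6⟩, k7⟩ => ?_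
  · rw [j7, Arr.get_set]
    split_ifs with h
    · simp [h]
    · simp [k7, h]
  · rw [List.append_nil] at e
    subst e
    exact ⟨k1, k2, k3, k4.cut, k4.rt, k4.vt, k5, k6, by
      simpa only [List.map_const', List.sum_replicate, smul_eq_mul] using k7⟩

theorem sp_unps {l : List ℕ} {w : Wo} (hg : ∀ o ∈ l, 3 * o ≤ g.X) :
    Sp g (foldL unp1 l w) fun r t => r.1 = w.1 ∧
      (∀ o, r.2.1.get o = true ↔ w.2.1.get o = true ∧ o ∉ l) ∧
      r.2.2 = (l.map fun o => 3 * o + 1).reverse ++ w.2.2 ∧ t = l.length + 1 := by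
  refine (sp_foldL (fun l' (r : Wo) t => ∃ l0, l0 ++ l' = l ∧ r.1 = w.1 ∧
      (∀ o, r.2.1.get o = true ↔ w.2.1.get o = true ∧ o ∉ l0) ∧
      r.2.2 = (l0.map fun o => 3 * o + 1).reverse ++ w.2.2 ∧ t = l0.length)
    (fun o l' r t ⟨l0, e, k1, k2, k3, k4⟩ => ?_)
    (l := l) (s := w) (t := 0) ⟨[], rfl, rfl, by simp, rfl, rfl⟩).mono ?_
  · refine sp_bind.2 (sp_nat.2 ⟨hg o (by simp [← e]), sp_pure.2
      ⟨l0 ++ [o], by simp [← e], k1, fun o' => ?_, by simp [k3], by simp [k4]⟩⟩)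
    change (r.2.1.set o false).get o' = true ↔ _
    rw [Arr.get_set]
    split_ifs with h
    · simp [h]
    · simp [k2, h]
  · rintro r _ ⟨u, rfl, l0, e, k1, k2, k3, k4⟩
    rw [List.append_nil] at e
    subst e
    exact ⟨k1, k2, k3, by omega⟩

/-- the ends of a proper item lie at marked nodes -/
theorem nonloop (hX : FxOk P c G0 X) {pc : Pc.St} {M : Finset ℕ} {vx : Arr ℕ}
    (hI : Pc.Inv X.T X.T.ord.toFinset (fun _ => 1) K M pc) (hv : VxOk P X pc.rt vx) {e : ℕ}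
    (he : e < X.nO) (h : vx.get (2 * e) ≠ vx.get (2 * e + 1)) :
    vx.get (2 * e) ∈ M ∧ vx.get (2 * e + 1) ∈ M := by
  rw [hv, hv, if_pos (by omega), if_pos (by omega), nd_even, nd_odd] at h ⊢
  obtain ⟨-, h1, h2, -, -, -, h3, h4, -, -, h5⟩ := hX.ok.obj _ (hX.ob _ he)
  rw [← List.mem_toFinset] at h1 h2
  rw [← Pc.anc_iff] at h3 h4
  simp only [← Pc.anc_iff] at h5
  exact ⟨(hI.lam hX.wf h1 h2 h3 h4 h5 h).2.2.2.2,
    (hI.lam hX.wf h2 h1 h4 h3 (fun x k => h5 x k.symm) h.symm).2.2.2.2⟩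

/-- pieces are small -/
theorem deg_le (hX : FxOk P c G0 X) {pc : Pc.St} {vx : Arr ℕ} (hp : PcOk X K pc)
    (hv : VxOk P X pc.rt vx) (v : ℕ) :
    ((List.range X.nO).map fun e => Bf.cnt vx.get v [2 * e]).sum ≤ K * P.S := by
  obtain ⟨M, I⟩ := hp
  have h1 : ∀ n, ((List.range n).map fun e => Bf.cnt vx.get v [2 * e]).sum =
      #{o ∈ range (2 * n) | vx.get o = v} := fun n => by
    induction n with
    | zero => rfl
    | succ n ih =>
      rw [List.range_succ, List.map_append, List.sum_append, ih, card_filter, card_filter,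
        show 2 * (n + 1) = 2 * n + 1 + 1 by ring, sum_range_succ, sum_range_succ]
      simp [Bf.cnt, Bf.rv, add_assoc]
  have h2 := I.p.piece_wt hX.wf v
  rw [← card_eq_sum_ones] at h2
  rw [h1]
  calc _ ≤ #((X.T.ord.toFinset.filter fun x => pc.rt.get x = v).biUnion
        fun y => (X.en.get y).toFinset) := card_le_card fun o ho => by
        obtain ⟨k1, k2⟩ := mem_filter.1 ho
        have k3 : o / 2 < X.nO := by have := mem_range.1 k1; omega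
        rw [hv, if_pos k3] at k2
        exact mem_biUnion.2 ⟨_, mem_filter.2 ⟨List.mem_toFinset.2 (hX.nd_mem k3), k2⟩,
          List.mem_toFinset.2 (((hX.en _).2 o).2 ⟨k3, rfl⟩)⟩
    _ ≤ _ := card_biUnion_le_card_mul _ _ _ fun y _ => (List.toFinset_card_le _).trans (hX.en y).1
    _ ≤ _ := Nat.mul_le_mul_right _ h2

end Crest.Agent.N325.Sg
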