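import Crest.Agent.N325.Ds.Defs
import Crest.Agent.N325.Ds.Fin_Mg
import Crest.Agent.N325.Sg.Mark
import Crest.Agent.N325.Sg.Defs
import Crest.Agent.N325.Sg.Tab

-- ▼ part N325/Ds/Go
section

/-!
# Row 325 (helper35): the odometer of the batch spanner
-/

set_option autoImplicit false

namespace Crest.Agent.N325.Ds

open Bf

variable {g : Gl} {bx : BI → R BO} {cls : ℕ → ℕ} {k : Cs} {Nx : ℕ → ℕ → Prop} {Gam : ℕ → ℕ}

/-- the specification of `recomp` -/
def RecSpec (g : Gl) (bx : BI → R BO) (cls : ℕ → ℕ) (k : Cs) (Nx : ℕ → ℕ → Prop)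
    (Gam : ℕ → ℕ) : Prop :=
  ∀ {vx : Arr ℕ} {al : Arr Bool} {P : ℕ} {y : Lv}, LvOk k cls vx.get al.get y → P ≤ k.LM →
    Nx y.lm P → y.lm ≤ P →
    Sp g (recomp bx vx al P y) fun r t =>
      SnOk cls vx.get al.get r.1 P (y.dd + y.dd * Gam P) [] ∧
      (∀ e, r.1.h.get e = true ↔ y.sn.h.get e = true ∨ e ∈ r.2.1) ∧
      (∀ e ∈ r.2.1, y.sn.h.get e = false ∧ al.get e = true ∧ e ∈ r.2.2) ∧ r.2.1.Nodup ∧
      r.2.1.length ≤ k.cH * (y.S.length + 1) ∧ r.2.2.length ≤ k.DD * y.S.length ∧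
      (∀ e, al.get e = true → y.sn.h.get e = false → (e ∉ r.2.2 ↔ Un vx.get y.sn y.S e)) ∧
      (∀ e, e ∉ r.2.2 → r.1.w.get e = y.sn.w.get e) ∧ t ≤ k.Cr * (y.S.length + 1)

theorem SnOk.mono {vx : ℕ → ℕ} {al : ℕ → Bool} {sn : Sn} {lm dd lm' dd' : ℕ} {S : List ℕ}
    (h : SnOk cls vx al sn lm dd S) (a : lm ≤ lm') (b : dd ≤ dd') : SnOk cls vx al sn lm' dd' S := by
  obtain ⟨vx0, h1, h2, h3⟩ := h
  exact ⟨vx0, h1, fun v => (h2 v).trans b, fun e p q =>
    ⟨(h3 e p q).wk, (h3 e p q).len.trans a, (h3 e p q).pub, (h3 e p q).ix⟩⟩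

theorem Lk.un' {vx : ℕ → ℕ} {al : ℕ → Bool} {x y : Lv} (h : Lk Nx Gam vx al x y) {e : ℕ}
    (a : al e = true) (b : y.sn.h.get e = false) (c : Un vx y.sn y.S e) : Un vx x.sn x.S e := by
  intro o ho
  rw [(h.un e a b c).1] at ho
  exact ⟨fun q => (c o ho).1 (h.sub _ q), fun q => (c o ho).2 (h.sub _ q)⟩

/-- the result of the odometer on `x :: l` -/
structure GoRes (k : Cs) (cls : ℕ → ℕ) (Nx : ℕ → ℕ → Prop) (Gam : ℕ → ℕ) (vx : ℕ → ℕ)
    (al : ℕ → Bool) (x : Lv) (l : List Lv) (x' : Lv) (l' : List Lv) (out new ts : List ℕ)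
    (t m : ℕ) : Prop where
  len : l'.length = l.length
  S : x'.S = []
  cnt : x'.cnt = 0
  lm : x'.lm = x.lm
  dd : x'.dd = x.dd
  ok : ∀ y ∈ x' :: l', LvOk k cls vx al y
  lk : (x' :: l').IsChain (Lk Nx Gam vx al)
  val : val k.b l' = val k.b l + 1
  ond : out.Nodup
  oh : ∀ e ∈ out, x.sn.h.get e = true
  nnd : new.Nodup
  nw : ∀ e ∈ new, al e = true ∧ ¬(x.sn.h.get e = true ∧ e ∉ out)
  h : ∀ e, x'.sn.h.get e = true ↔ (x.sn.h.get e = true ∧ e ∉ out) ∨ e ∈ new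
  un : ∀ e, al e = true → x'.sn.h.get e = false → e ∉ ts →
    x.sn.h.get e = false ∧ x'.sn.w.get e = x.sn.w.get e ∧ Un vx x.sn x.S e
  phi : phi k.b l' + m = phi k.b l
  psi : psi (x' :: l') + out.length = psi (x :: l) + new.length
  nl : new.length ≤ k.cH * (m + 1)
  tl : ts.length ≤ k.DD * m
  tm : t ≤ k.Cr * (m + 1) + out.length + 2 * l.length

theorem val_lt {b : ℕ} {y : Lv} {l : List Lv} (h : val b (y :: l) + 1 < (b + 1) ^ (y :: l).length)
    (hy : b ≤ y.cnt) : val b l + 1 < (b + 1) ^ l.length := by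
  rw [List.length_cons, pow_succ, val] at h
  by_contra q
  have := Nat.mul_le_mul_right (b + 1) (not_lt.1 q)
  nlinarith

theorem sp_go (hr : RecSpec g bx cls k Nx Gam) {vx : Arr ℕ} {al : Arr Bool} (l : List Lv) :
    ∀ x : Lv, (∀ y ∈ x :: l, LvOk k cls vx.get al.get y) →
      (x :: l).IsChain (Lk Nx Gam vx.get al.get) → val k.b l + 1 < (k.b + 1) ^ l.length →
      Sp g (go bx k.b vx al (x :: l)) fun r t => ∃ x' l' m, r.1 = x' :: l' ∧
        GoRes k cls Nx Gam vx.get al.get x l x' l' r.2.1 r.2.2.1 r.2.2.2 t m := by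
  induction l with
  | nil => intro x _ _ h; simp [val] at h
  | cons y l ih =>
    intro x ok lk hv
    obtain ⟨xy, lk'⟩ := List.isChain_cons_cons.1 lk
    have okx := ok x List.mem_cons_self
    have oky := ok y (List.mem_cons_of_mem _ List.mem_cons_self)
    have hxo : ∀ e, (x.sn.h.get e = true ∧ e ∉ x.hl) ↔ y.sn.h.get e = true := fun e => by
      rw [xy.h]
      exact ⟨fun q => q.1.resolve_right q.2, fun q => ⟨Or.inl q, fun q' => by
        rw [xy.dj e q'] at q; cases q⟩⟩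
    rw [go]
    refine sp_ite.2 ⟨fun c => ?_, fun c => ?_⟩
    · refine (hr oky okx.lm xy.nx xy.le).bind fun r t ⟨r1, r2, r3, r4, r5, r6, r7, r8, r9⟩ => ?_
      refine ⟨_, _, y.S.length, rfl, rfl, rfl, rfl, rfl, rfl, fun z hz => ?_, ?_, ?_, xy.nd,
        fun e q => (xy.h e).2 (Or.inr q), r4, fun e q => ⟨(r3 e q).2.1, fun q' => ?_⟩,
        fun e => ?_, fun e a b c' => ?_, ?_, ?_, r5, r6, ?_⟩
      · rcases List.mem_cons.1 hz with rfl | hz
        · exact ⟨r1.mono le_rfl xy.dd, okx.lm, okx.dd, Nat.zero_le _, fun v q => (nomatch q)⟩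
        rcases List.mem_cons.1 hz with rfl | hz
        · exact ⟨oky.sn, oky.lm, oky.dd, c, oky.lt⟩
        · exact ok z (List.mem_cons_of_mem _ (List.mem_cons_of_mem _ hz))
      · refine List.isChain_cons_cons.2 ⟨⟨fun v q => (nomatch q), r2, fun e q => (r3 e q).1, r4,
          fun e a b u => ?_, xy.nx, xy.le, xy.dd⟩, ?_⟩
        · have q := (r7 e a b).2 u
          refine ⟨r8 e q, Bool.eq_false_iff.2 fun q' => ?_⟩
          rcases (r2 e).1 q' with q' | q'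
          · rw [b] at q'; cases q'
          · exact q (r3 e q').2.2
        · cases l with
          | nil => exact List.isChain_singleton _
          | cons z l =>
            obtain ⟨yz, lk''⟩ := List.isChain_cons_cons.1 lk'
            exact List.isChain_cons_cons.2
              ⟨⟨yz.sub, yz.h, yz.dj, yz.nd, yz.un, yz.nx, yz.le, yz.dd⟩, lk''⟩
      · simp only [val]; omega
      · have := (hxo e).1 q'
        rw [(r3 e q).1] at this; cases this
      · rw [hxo]; exact r2 e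
      · have b' : y.sn.h.get e = false := Bool.eq_false_iff.2 fun q => by
          rw [(r2 e).2 (Or.inl q)] at b; cases b
        have u := (r7 e a b').1 c'
        exact ⟨(xy.un e a b' u).2, (r8 e c').trans (xy.un e a b' u).1.symm, xy.un' a b' u⟩
      · simp only [phi, List.map_cons, List.sum_cons]
        obtain ⟨d, hd⟩ := Nat.exists_eq_add_of_lt c
        rw [show k.b - (y.cnt + 1) = d by omega, show k.b - y.cnt = d + 1 by omega]; ring
      · simp only [psi, List.map_cons, List.sum_cons]; omega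
      · omega
    · rw [sp_bind, sp_call]
      refine (ih y (fun z hz => ok z (List.mem_cons_of_mem _ hz)) lk'
        (val_lt hv (not_lt.1 c))).mono fun r t ⟨y', l', m, e, G⟩ => ?_
      refine (sp_revAppL _ _).bind fun out t' ⟨eo, et⟩ => ?_
      have oky' := G.ok y' List.mem_cons_self
      have mo : ∀ e, e ∈ out ↔ e ∈ x.hl ∨ e ∈ r.2.1 := fun e => by
        rw [eo, List.mem_append, List.mem_reverse]
      have hxo' : ∀ e, (x.sn.h.get e = true ∧ e ∉ out) ↔ (y.sn.h.get e = true ∧ e ∉ r.2.1) :=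
        fun e => by rw [mo, ← hxo, not_or, and_assoc]
      refine ⟨_, r.1, m, rfl, ?_⟩
      rw [e, List.headD_cons]
      refine ⟨by rw [List.length_cons, G.len]; rfl, rfl, rfl, rfl, rfl, fun z hz => ?_, ?_, ?_, ?_,
        fun e q => ?_, G.nnd, fun e q => ⟨(G.nw e q).1, by rw [hxo']; exact (G.nw e q).2⟩,
        fun e => by rw [hxo']; exact G.h e, fun e a b c' => ?_, ?_, ?_, G.nl, G.tl, ?_⟩
      · rcases List.mem_cons.1 hz with rfl | hz
        · refine ⟨?_, okx.lm, okx.dd, Nat.zero_le _, fun v q => (nomatch q)⟩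
          have := oky'.sn
          rw [G.S] at this
          exact this.mono (G.lm ▸ xy.le) (G.dd ▸ (Nat.le_add_right _ _).trans xy.dd)
        · exact G.ok z hz
      · exact List.isChain_cons_cons.2 ⟨⟨fun v q => (nomatch q), fun e => (by simp),
          fun e q => (nomatch q), List.nodup_nil, fun e _ b _ => ⟨rfl, b⟩, G.lm ▸ xy.nx,
          G.lm ▸ xy.le, G.dd ▸ xy.dd⟩, G.lk⟩
      · have := oky.cnt
        simp only [val, G.cnt, G.val]
        rw [show y.cnt = k.b by omega]; ring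
      · rw [eo]
        refine List.Nodup.append (List.nodup_reverse.2 xy.nd) G.ond fun e a b => ?_
        have := G.oh e b
        rw [xy.dj e (List.mem_reverse.1 a)] at this; cases this
      · exact (xy.h e).2 (((mo e).1 q).symm.imp_left (G.oh e))
      · obtain ⟨u1, u2, u3⟩ := G.un e a b c'
        exact ⟨(xy.un e a u1 u3).2, u2.trans (xy.un e a u1 u3).1.symm, xy.un' a u1 u3⟩
      · have := G.phi
        have q := oky.cnt
        simp only [phi, List.map_cons, List.sum_cons, G.S, List.length_nil, mul_zero] at this ⊢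
        rw [show k.b - y.cnt = 0 by omega]; omega
      · have := G.psi
        simp only [psi, List.map_cons, List.sum_cons, List.length_nil, eo, List.length_append,
          List.length_reverse] at this ⊢
        omega
      · have := G.tm
        simp only [eo, List.length_append, List.length_reverse, List.length_cons]
        omega

end Crest.Agent.N325.Ds
end

-- ▼ part N325/Ds/Upd
section

/-!
# Row 325 (helper35): the update of the batch spanner
-/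

set_option autoImplicit false

namespace Crest.Agent.N325.Ds

open Bf

variable {g : Gl} {bx : BI → R BO} {cls : ℕ → ℕ} {k : Cs} {Nx : ℕ → ℕ → Prop} {Gam : ℕ → ℕ}
  {gt : ℕ → ℤ} {la : ℕ → ℕ} {th L n : ℕ} {vx : ℕ → ℕ} {s : St}

/-- one step of the killing loop -/
def kill (h : ℕ → Bool) (e : ℕ) (a : Arr Bool × List ℕ) : Arr Bool × List ℕ :=
  if a.1.get e = true then (a.1.set e false, if h e = true then e :: a.2 else a.2) else a

theorem foldl_kill (h : ℕ → Bool) (K : List ℕ) (a : Arr Bool × List ℕ) (nd : a.2.Nodup)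
    (dj : ∀ e ∈ a.2, a.1.get e = false) :
    (∀ e, (K.foldl (fun a e => kill h e a) a).1.get e = true ↔ a.1.get e = true ∧ e ∉ K) ∧
    (K.foldl (fun a e => kill h e a) a).2.Nodup ∧
    (∀ e, e ∈ (K.foldl (fun a e => kill h e a) a).2 ↔
      e ∈ a.2 ∨ (a.1.get e = true ∧ e ∈ K ∧ h e = true)) ∧
    (K.foldl (fun a e => kill h e a) a).2.length ≤ a.2.length + K.length := by
  induction K generalizing a with
  | nil => simp [nd]
  | cons x K ih =>
    rw [List.foldl_cons]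
    have k1 : ∀ e, (kill h x a).1.get e = true ↔ a.1.get e = true ∧ e ≠ x := fun e => by
      unfold kill
      by_cases c : a.1.get x = true
      · rw [if_pos c, Arr.get_set]; split_ifs with d <;> simp [d]
      · rw [if_neg c]; exact ⟨fun q => ⟨q, fun d => c (d ▸ q)⟩, fun q => q.1⟩
    have k2 : ∀ e, e ∈ (kill h x a).2 ↔ e ∈ a.2 ∨ (a.1.get e = true ∧ e = x ∧ h e = true) :=
      fun e => by
      unfold kill
      split_ifs with c d
      · rw [List.mem_cons]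
        exact ⟨fun q => q.elim (fun q => Or.inr ⟨q ▸ c, q, q ▸ d⟩) Or.inl,
          fun q => q.elim Or.inr fun q => Or.inl q.2.1⟩
      · exact ⟨Or.inl, fun q => q.elim id fun q => absurd (q.2.1 ▸ q.2.2) d⟩
      · exact ⟨Or.inl, fun q => q.elim id fun q => absurd (q.2.1 ▸ q.1) c⟩
    have k3 : (kill h x a).2.Nodup ∧ (kill h x a).2.length ≤ a.2.length + 1 := by
      unfold kill
      split_ifs with c d
      · exact ⟨List.nodup_cons.2 ⟨fun q => (by rw [dj x q] at c; cases c), nd⟩, le_rfl⟩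
      · exact ⟨nd, Nat.le_succ _⟩
      · exact ⟨nd, Nat.le_succ _⟩
    obtain ⟨i1, i2, i3, i4⟩ := ih (kill h x a) k3.1 fun e q => Bool.eq_false_iff.2 fun q' => by
      rcases (k2 e).1 q with q | q
      · have := ((k1 e).1 q').1
        rw [dj e q] at this; cases this
      · exact ((k1 e).1 q').2 q.2.1
    refine ⟨fun e => by rw [i1, k1, List.mem_cons, not_or, and_assoc], i2, fun e => ?_,
      by have := k3.2; rw [List.length_cons]; omega⟩
    rw [i3, k1, k2, List.mem_cons]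
    by_cases c : e = x <;> simp [c]

theorem foldl_ends (vx : ℕ → ℕ) (K T : List ℕ) :
    (∀ v, v ∈ K.foldl (fun T' e => vx (2 * e) :: vx (2 * e + 1) :: T') T ↔
      v ∈ T ∨ ∃ e ∈ K, v = vx (2 * e) ∨ v = vx (2 * e + 1)) ∧
    (K.foldl (fun T' e => vx (2 * e) :: vx (2 * e + 1) :: T') T).length =
      T.length + 2 * K.length := by
  induction K generalizing T with
  | nil => simp
  | cons x K ih =>
    rw [List.foldl_cons]
    obtain ⟨i1, i2⟩ := ih (vx (2 * x) :: vx (2 * x + 1) :: T)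
    refine ⟨fun v => ?_, by rw [i2]; simp only [List.length_cons]; omega⟩
    rw [i1]
    simp only [List.mem_cons, exists_eq_or_imp]
    generalize (∃ e ∈ K, v = vx (2 * e) ∨ v = vx (2 * e + 1)) = p
    generalize (v = vx (2 * x)) = p1
    generalize (v = vx (2 * x + 1)) = p2
    tauto

/-- a level with more touched vertices -/
def Lv.add (T : List ℕ) (y : Lv) : Lv := ⟨y.cnt, y.lm, y.dd, y.sn, y.hl, T.reverse ++ y.S⟩

theorem mem_add {T : List ℕ} {y : Lv} {v : ℕ} : v ∈ (y.add T).S ↔ v ∈ T ∨ v ∈ y.S := by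
  simp [Lv.add]

section touch

variable {vx' : ℕ → ℕ} {al al' : ℕ → Bool} {T T' : List ℕ}

theorem LvOk.add {y : Lv} (h : LvOk k cls vx al y) (hc : Chg vx' vx T) (hT : ∀ v ∈ T, v ∈ T')
    (hlt : ∀ v ∈ T', v < k.nV) (ha : ∀ e, al' e = true → al e = true)
    (hk : ∀ o, al (o / 2) = true → al' (o / 2) = false → vx' o ∈ T') :
    LvOk k cls vx' al' (y.add T') := by
  obtain ⟨vx0, h1, h2, h3⟩ := h.sn
  have c : Chg vx' vx0 (y.add T').S := by
    refine ⟨fun o o' q => h1.1 o o' (hc.1 o o' q), fun o q => ?_⟩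
    simp only [mem_add]
    by_cases a : vx' o = vx o
    · have := h1.2 o (a ▸ q)
      exact ⟨Or.inr (a ▸ this.1), Or.inr this.2⟩
    · refine ⟨Or.inl (hT _ (hc.2 o a).1), ?_⟩
      by_cases b : vx o = vx0 o
      · exact Or.inl (b ▸ hT _ (hc.2 o a).2)
      · exact Or.inr (h1.2 o b).2
  have d : ∀ o, al (o / 2) = true → al' (o / 2) = false → vx0 o ∈ (y.add T').S := fun o p q => by
    by_cases a : vx' o = vx0 o
    · exact mem_add.2 (Or.inl (a ▸ hk o p q))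
    · exact (c.2 o a).2
  refine ⟨⟨vx0, c, h2, fun e p q => ?_⟩, h.lm, h.dd, h.cnt,
    fun v q => (mem_add.1 q).elim (hlt v) (h.lt v)⟩
  have w := h3 e (ha e p) q
  refine ⟨w.wk, w.len, fun o ho => ⟨(w.pub o ho).1, (w.pub o ho).2.1, fun u => ?_⟩, w.ix⟩
  by_cases a : al (o / 2) = true
  · exact ⟨d o a u, d (rv o) (by rwa [rv_div]) (by rwa [rv_div])⟩
  · have := (w.pub o ho).2.2 (Bool.eq_false_iff.2 a)
    exact ⟨mem_add.2 (Or.inr this.1), mem_add.2 (Or.inr this.2)⟩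

theorem Lk.add {x y : Lv} (h : Lk Nx Gam vx al x y) (hc : Chg vx' vx T) (hT : ∀ v ∈ T, v ∈ T')
    (ha : ∀ e, al' e = true → al e = true) : Lk Nx Gam vx' al' (x.add T') (y.add T') := by
  refine ⟨fun v q => mem_add.2 ((mem_add.1 q).imp_right (h.sub v)), h.h, h.dj, h.nd,
    fun e a b u => h.un e (ha e a) b fun o ho => ?_, h.nx, h.le, h.dd⟩
  have d : ∀ o, vx' o ∉ (y.add T').S → vx o ∉ y.S := fun o p q => by
    by_cases a : vx' o = vx o
    · exact p (mem_add.2 (Or.inr (a ▸ q)))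
    · exact p (mem_add.2 (Or.inl (hT _ (hc.2 o a).1)))
  exact ⟨d o (u o ho).1, d _ (u o ho).2⟩

end touch

theorem val_add (b : ℕ) (T : List ℕ) (l : List Lv) : val b (l.map (Lv.add T)) = val b l := by
  induction l with
  | nil => rfl
  | cons y l ih => simp only [List.map_cons, val, ih, Lv.add]

theorem psi_add (T : List ℕ) (l : List Lv) : psi (l.map (Lv.add T)) = psi l := by
  simp only [psi, List.map_map]; rfl

theorem phi_add (b : ℕ) (T : List ℕ) (l : List Lv) :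
    phi b (l.map (Lv.add T)) ≤ phi b l + b * l.length * T.length := by
  induction l with
  | nil => simp [phi]
  | cons y l ih =>
    simp only [phi, List.map_cons, List.sum_cons, Lv.add, List.length_append, List.length_reverse,
      List.length_cons] at ih ⊢
    have := Nat.mul_le_mul_right T.length (Nat.sub_le b y.cnt)
    nlinarith

theorem num_rc {cH b L p p' m M s s' o n o' K : ℕ} (h1 : p' + m ≤ p + b * L * M)
    (h2 : s' + o = s + n) (h3 : n ≤ cH * (m + 1)) (h4 : o' ≤ K + o) (h5 : K ≤ M) :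
    o' + n + (2 * cH * p' + s') ≤ 2 * cH * p + s + (2 * cH * (b * L + 1) + 1) * (M + 1) := by
  have := Nat.mul_le_mul_left (2 * cH) h1
  generalize b * L = c at *
  nlinarith [Nat.zero_le (cH * c), Nat.zero_le (cH * M)]

theorem num_tm {Cr cH DD LM b L p p' m M s s' o n ts bd t : ℕ} (h1 : p' + m ≤ p + b * L * M)
    (h2 : s' + o = s + n) (h3 : n ≤ cH * (m + 1)) (h4 : ts ≤ DD * m)
    (h5 : t ≤ Cr * (m + 1) + 3 * o + ts + L * M + 3 * M + 5 * L + 20) :
    t + ((Cr + 8 * cH + DD * (LM + 6)) * p' + 8 * s' + (LM + 4) * (ts + bd)) ≤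
      (Cr + 8 * cH + DD * (LM + 6)) * p + 8 * s + (LM + 4) * bd +
        ((Cr + 8 * cH + DD * (LM + 6)) * (b * L + 1) + 5 * L + 20) * (M + 1) := by
  have a1 := Nat.mul_le_mul_left (LM + 5) h4
  have a2 : (Cr + 8 * cH + DD * (LM + 6)) * m =
      Cr * m + 8 * (cH * m) + (LM + 5) * (DD * m) + DD * m := by ring
  have a3 : Cr + 8 * cH ≤ Cr + 8 * cH + DD * (LM + 6) := Nat.le_add_right _ _
  generalize Cr + 8 * cH + DD * (LM + 6) = A at *
  have a4 := Nat.mul_le_mul_left A h1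
  generalize b * L = c at *
  generalize DD * m = d at *
  nlinarith [Nat.zero_le (A * c), Nat.zero_le (A * M), Nat.zero_le (L * M)]

theorem sp_upd' (hr : RecSpec g bx cls k Nx Gam) {vx' : Arr ℕ} {T K : List ℕ}
    (hI : Inv k Nx Gam cls gt la th L vx s n) (hc : Chg vx'.get vx T) (hT : ∀ v ∈ T, v < k.nV)
    (hK : ∀ e ∈ K, vx'.get (2 * e) < k.nV ∧ vx'.get (2 * e + 1) < k.nV)
    (hn : n + 1 < (k.b + 1) ^ L) :
    Sp g (upd bx k.b vx' T K s) fun r t =>
      Inv k Nx Gam cls gt la th L vx'.get r.1 (n + 1) ∧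
      (∀ e, r.1.al.get e = true ↔ s.al.get e = true ∧ e ∉ K) ∧
      r.2.1.Nodup ∧ (∀ e ∈ r.2.1, s.pub e) ∧ r.2.2.Nodup ∧
      (∀ e ∈ r.2.2, ¬(s.pub e ∧ e ∉ r.2.1)) ∧
      (∀ e, r.1.pub e ↔ (s.pub e ∧ e ∉ r.2.1) ∨ e ∈ r.2.2) ∧
      r.2.1.length + r.2.2.length + k.rc r.1 ≤ k.rc s + k.RU L (T.length + 2 * K.length) ∧
      t + k.Phi r.1 ≤ k.Phi s + k.TU L (T.length + 2 * K.length) := by
  obtain ⟨al, ls, bad⟩ := s
  obtain ⟨len, ok, lk, cur, vl, cov⟩ := hI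
  cases ls with
  | nil => cases len
  | cons x l =>
  simp only [St.cur, List.headD_cons, List.tail_cons, List.length_cons, add_left_inj]
    at len ok lk cur vl cov
  refine (sp_foldP (kill x.sn.h.get) K (al, [])).bind fun a t1 ⟨ea, e1⟩ => ?_
  obtain ⟨a1, a2, a3, a4⟩ := foldl_kill x.sn.h.get K (al, []) List.nodup_nil fun e q => nomatch q
  rw [← ea] at a1 a2 a3 a4
  simp only [List.not_mem_nil, false_or, List.length_nil, zero_add] at a1 a3 a4
  refine (sp_foldP _ K T).bind fun T' t2 ⟨eT, e2⟩ => ?_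
  obtain ⟨b1, b2⟩ := foldl_ends vx'.get K T
  rw [← eT] at b1 b2
  refine (sp_mapL' (Lv.add T') (fun _ => T'.length + 1) fun y _ =>
    (sp_revAppL T' y.S).bind fun S' t q => sp_pure.2 ⟨by rw [q.1]; rfl, q.2.le⟩).bind
    fun ls t3 ⟨el, e3⟩ => ?_
  have ha : ∀ e, a.1.get e = true → al.get e = true := fun e q => ((a1 e).1 q).1
  have hT' : ∀ v ∈ T, v ∈ T' := fun v q => (b1 v).2 (Or.inl q)
  subst el
  rw [List.map_cons]
  refine (sp_go hr (l.map (Lv.add T')) (x.add T') (fun y hy => ?_) ?_ ?_).bind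
    fun r t4 ⟨x', l', m, er, G⟩ => ?_
  · rw [← List.map_cons] at hy
    obtain ⟨y, hy', rfl⟩ := List.mem_map.1 hy
    refine (ok y hy').add hc hT' (fun v q => ?_) ha fun o p q => (b1 _).2 (Or.inr ⟨o / 2, ?_, ?_⟩)
    · rcases (b1 v).1 q with q' | ⟨e, q', rfl | rfl⟩
      exacts [hT v q', (hK e q').1, (hK e q').2]
    · by_contra u
      rw [(a1 _).2 ⟨p, u⟩] at q; cases q
    · rcases Nat.mod_two_eq_zero_or_one o with u | u
      · exact Or.inl (congrArg _ (by omega))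
      · exact Or.inr (congrArg _ (by omega))
  · rw [← List.map_cons, List.isChain_map]
    exact lk.imp fun _ _ q => q.add hc hT' ha
  · rw [val_add, List.length_map, vl, len]; exact hn
  refine (sp_filterP _ _).bind fun o2 t5 ⟨eo, e5⟩ => (sp_revAppL _ _).bind fun out t6 ⟨eu, e6⟩ =>
    (sp_revAppL _ _).bind fun bad' t7 ⟨eb, e7⟩ => ?_
  have mo : ∀ e, e ∈ out ↔ (al.get e = true ∧ e ∈ K ∧ x.sn.h.get e = true) ∨
      (e ∈ r.2.1 ∧ al.get e = true ∧ e ∉ K) := fun e => by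
    rw [eu, eo, List.mem_append, List.mem_reverse, List.mem_filter, a3, a1]
  have lo : out.length ≤ K.length + r.2.1.length := by
    have := List.length_filter_le a.1.get r.2.1
    rw [eu, eo, List.length_append, List.length_reverse]; omega
  have xh : (x.add T').sn = x.sn := rfl
  have ph := phi_add k.b T' l
  have gp := G.phi
  have gs := G.psi
  have gn := G.nl
  have gt' := G.tl
  have gm := G.tm
  rw [← List.map_cons, psi_add] at gs
  rw [List.length_map, len] at gm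
  rw [len] at ph
  simp only [sp_pure, St.pub, St.cur, er, List.headD_cons, Cs.rc, Cs.Phi, List.tail_cons]
  refine ⟨⟨by rw [List.length_cons, G.len, List.length_map, len], G.ok, G.lk, G.S,
    by rw [List.tail_cons, G.val, val_add, vl], fun e p q u => ?_⟩, a1, ?_, fun e q => ?_, G.nnd,
    fun e q u => ?_, fun e => ?_, ?_, ?_⟩
  · simp only [eb, List.mem_append, List.mem_reverse, not_or] at u
    obtain ⟨u1, u2, -⟩ := G.un e p q u.1
    simp only [St.cur, List.headD_cons]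
    rw [u2]
    exact cov e (ha e p) u1 u.2
  · rw [eu, eo]
    refine List.Nodup.append (List.nodup_reverse.2 a2) (G.ond.filter _) fun e p q => ?_
    exact ((a1 e).1 (List.mem_filter.1 q).2).2 ((a3 e).1 (List.mem_reverse.1 p)).2.1
  · rcases (mo e).1 q with q | q
    exacts [⟨q.1, q.2.2⟩, ⟨q.2.1, G.oh e q.1⟩]
  · have p := (a1 e).1 (G.nw e q).1
    exact (G.nw e q).2 ⟨u.1.2, fun v => u.2 ((mo e).2 (Or.inr ⟨v, p⟩))⟩
  · have := fun q => (a1 e).1 (G.nw e q).1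
    rw [G.h, xh, a1, mo]
    tauto
  · rw [Cs.RU, ← b2]
    exact num_rc (by omega) gs gn lo (by omega)
  · rw [Cs.TU, ← b2, eb, List.length_append, List.length_reverse]
    simp only [List.map_const', List.sum_replicate, smul_eq_mul, List.length_cons, len] at e3
    exact num_tm (by omega) gs gn gt' (t := t1 + (t2 + (t3 + (t4 + (t5 + (t6 + (t7 + 0)))))))
      (by rw [add_mul, one_mul, mul_add, mul_one] at e3; omega)

end Crest.Agent.N325.Ds
end

-- ▼ part N325/Ds/Rec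
section

/-!
# Row 325 (helper31): the batch spanner — recomputation from a level
-/

set_option autoImplicit false

namespace Crest.Agent.N325.Ds

open Bf

theorem cnt_congr {vx vo : ℕ → ℕ} {v : ℕ} {l : List ℕ}
    (e : ∀ o ∈ l, vx o = vo o ∧ vx (rv o) = vo (rv o)) : cnt vx v l = cnt vo v l := by
  induction l with
  | nil => rfl
  | cons o l ih =>
    have := e o List.mem_cons_self
    rw [cnt_cons, cnt_cons, this.1, this.2, ih fun o' k => e o' (List.mem_cons_of_mem _ k)]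

theorem sum_count_le {l : List ℕ} (n : l.Nodup) (m : List ℕ) :
    (l.map fun o => m.count o).sum ≤ m.length := by
  induction m with
  | nil => simp
  | cons a m ih =>
    have e : (l.map fun o => (a :: m).count o).sum = (l.map fun o => m.count o).sum + l.count a := by
      clear ih n
      induction l with
      | nil => simp
      | cons b l ih =>
        simp only [List.map_cons, List.sum_cons, List.count_cons, beq_iff_eq] at ih ⊢
        have : (if a = b then 1 else 0) = (if b = a then 1 else 0 : ℕ) := by simp only [eq_comm]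
        omega
    have := List.nodup_iff_count_le_one.1 n a
    rw [e, List.length_cons]
    omega

theorem length_le_of_lt {l : List ℕ} (n : l.Nodup) {N : ℕ} (h : ∀ v ∈ l, v < N) : l.length ≤ N := by
  simpa using (List.subperm_of_subset n fun v m => List.mem_range.2 (h v m)).length_le

variable {g : Gl} {bx : BI → R BO} {cls : ℕ → ℕ} {k : Cs} {Nx : ℕ → ℕ → Prop} {Gam : ℕ → ℕ}

/-- an untouched walk survives -/
theorem WOk.un {vx vx0 : ℕ → ℕ} {al : ℕ → Bool} {sn sn' : Sn} {lm P e : ℕ} {S : List ℕ}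
    (h : WOk cls vx0 al sn lm S e) (hc : Chg vx vx0 S) (u : Un vx sn S e) (hle : lm ≤ P)
    (hw : sn'.w.get e = sn.w.get e) (hh : ∀ e, sn.h.get e = true → sn'.h.get e = true)
    (hi : ∀ v o, (sn.ix.get v).count o ≤ (sn'.ix.get v).count o) : WOk cls vx al sn' P [] e := by
  have q : ∀ o ∈ 2 * e :: sn.w.get e, vx o = vx0 o ∧ vx (rv o) = vx0 (rv o) := fun o m =>
    ⟨hc.eq (u o m).1, hc.eq (u o m).2⟩
  have q0 := q _ List.mem_cons_self
  rw [rv_two] at q0
  refine ⟨?_, hw ▸ h.len.trans hle, fun o m => ?_, fun v => ?_⟩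
  · rw [hw, q0.1, q0.2]
    exact h.wk.congr fun o m => q o (List.mem_cons_of_mem _ m)
  · rw [hw] at m
    obtain ⟨a, b, c⟩ := h.pub o m
    have m' := List.mem_cons_of_mem (2 * e) m
    exact ⟨hh _ a, b, fun d => absurd ((q o m').1 ▸ (c d).1) (u o m').1⟩
  · rw [hw, cnt_congr q]
    exact (h.ix v).trans (hi v _)

/-- the projections of the picked items -/
theorem sp_projAll (hcls : ∀ o, cls (rv o) = cls o) {vx nu : Arr ℕ} {vx0 : ℕ → ℕ} {al : ℕ → Bool}
    {sn : Sn} {lm : ℕ} {S E : List ℕ} (hnu : ∀ v, nu.get v ≠ 0 ↔ v ∈ S) (hc : Chg vx.get vx0 S)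
    (hE : ∀ o ∈ E, o % 2 = 0 ∧ WOk cls vx0 al sn lm S (o / 2)) (nE : E.Nodup) :
    Sp g (foldL (fun o J => mkIt vx nu o (sn.w.get (o / 2)) J) E []) fun J t =>
      (J.map Prod.fst).Nodup ∧
      (∀ o, o ∈ J.map Prod.fst ↔ o ∈ E ∧ ¬Un vx.get sn S (o / 2)) ∧ J.length ≤ E.length ∧
      (∀ i ∈ J, ItOk vx.get cls (· ∈ S)
        (fun c o => sn.h.get (o / 2) = true ∧ al (o / 2) = true ∧ cls o = c) lm i ∧
        ∀ v, cnt vx.get v (i.2.2.2.1 ++ i.1 :: i.2.2.2.2) ≤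
          cnt vx.get v (i.1 :: sn.w.get (i.1 / 2))) ∧
      t ≤ E.length * (3 * lm + 4) + 1 := by
  refine (sp_foldL' (fun l (J : List It) => ∃ l0, l0 ++ l = E ∧ (J.map Prod.fst).Nodup ∧
      (∀ o, o ∈ J.map Prod.fst ↔ o ∈ l0 ∧ ¬Un vx.get sn S (o / 2)) ∧ J.length ≤ l0.length ∧
      ∀ i ∈ J, ItOk vx.get cls (· ∈ S)
        (fun c o => sn.h.get (o / 2) = true ∧ al (o / 2) = true ∧ cls o = c) lm i ∧
        ∀ v, cnt vx.get v (i.2.2.2.1 ++ i.1 :: i.2.2.2.2) ≤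
          cnt vx.get v (i.1 :: sn.w.get (i.1 / 2))) (fun _ => 3 * lm + 3)
    (fun o l J ⟨l0, e, a1, a2, a3, a4⟩ => ?st) (l := E) (s := [])
    ⟨[], rfl, by simp, by simp, by simp, by simp⟩).mono ?fi
  case fi =>
    rintro J t ⟨⟨l0, e, a⟩, b⟩
    rw [List.append_nil] at e
    subst e
    exact ⟨a.1, a.2.1, a.2.2.1, a.2.2.2, by simpa using b⟩
  case st =>
    obtain ⟨ev, W⟩ := hE o (by simp [← e])
    have q : 2 * (o / 2) = o := by omega
    have wk := W.wk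
    rw [← rv_two, q] at wk
    have un : Un vx.get sn S (o / 2) ↔
        ∀ o' ∈ o :: sn.w.get (o / 2), vx.get o' ∉ S ∧ vx.get (rv o') ∉ S := by rw [Un, q]
    have no : o ∉ l0 := fun m => by
      rw [← e] at nE
      exact List.disjoint_of_nodup_append nE m List.mem_cons_self
    refine (sp_mkIt J hnu hc wk).mono fun r t ⟨T, c⟩ => ⟨⟨l0 ++ [o], by simp [← e], ?_⟩, by
      have := W.len; omega⟩
    rw [← un] at c
    rcases c with ⟨rfl, c⟩ | ⟨c, A, B, ra, ub, rfl, b1, b2, b3, b4, b5, b6, b7⟩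
    · refine ⟨a1, fun x => ?_, by simp only [List.length_append]; omega, a4⟩
      rw [a2, List.mem_append, List.mem_singleton]
      constructor
      · exact fun h => ⟨Or.inl h.1, h.2⟩
      · rintro ⟨h | rfl, h'⟩
        exacts [⟨h, h'⟩, absurd c h']
    · refine ⟨List.nodup_cons.2 ⟨fun m => no ((a2 o).1 m).1, a1⟩, fun x => ?_, by
        simp only [List.length_append, List.length_cons]; omega, fun i m => ?_⟩
      · rw [List.map_cons, List.mem_cons, a2, List.mem_append, List.mem_singleton]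
        constructor
        · rintro (rfl | h)
          exacts [⟨Or.inr rfl, c⟩, ⟨Or.inl h.1, h.2⟩]
        · rintro ⟨h | h, h'⟩
          exacts [Or.inr ⟨h, h'⟩, Or.inl h]
      · rcases List.mem_cons.1 m with rfl | m
        · refine ⟨⟨b1, b2, b3, b4, b5.trans W.len, fun o' m' => ?_⟩, b6⟩
          obtain ⟨p1, p2, p3⟩ := W.pub _ (b7 o' m').1
          rw [rv_div] at p1 p3
          rw [hcls, q] at p2
          rw [rv_rv] at p3
          refine ⟨p1, ?_, p2⟩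
          by_contra d
          exact (b7 o' m').2 (p3 (Bool.eq_false_iff.2 d)).symm
        · exact a4 i m

theorem sp_recomp (hb : BoxSpec g bx cls k Nx Gam) (hcls : ∀ o, cls (rv o) = cls o)
    {vx : Arr ℕ} {al : Arr Bool} {P : ℕ} {y : Lv} (hy : LvOk k cls vx.get al.get y)
    (hP : P ≤ k.LM) (hN : Nx y.lm P) (hle : y.lm ≤ P) :
    Sp g (recomp bx vx al P y) fun r t =>
      SnOk cls vx.get al.get r.1 P (y.dd + y.dd * Gam P) [] ∧
      (∀ e, r.1.h.get e = true ↔ y.sn.h.get e = true ∨ e ∈ r.2.1) ∧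
      (∀ e ∈ r.2.1, y.sn.h.get e = false ∧ al.get e = true ∧ e ∈ r.2.2) ∧ r.2.1.Nodup ∧
      r.2.1.length ≤ k.cH * (y.S.length + 1) ∧ r.2.2.length ≤ k.DD * y.S.length ∧
      (∀ e, al.get e = true → y.sn.h.get e = false → (e ∉ r.2.2 ↔ Un vx.get y.sn y.S e)) ∧
      (∀ e, e ∉ r.2.2 → r.1.w.get e = y.sn.w.get e) ∧ t ≤ k.Cr * (y.S.length + 1) := by
  obtain ⟨vx0, hc, hd, hw⟩ := hy.sn
  refine (sp_numS y.S).bind fun a t1 ⟨a1, a2, a3, a4, a5, a6, a7, T1⟩ =>
    (sp_flatMapP _ _).bind fun C t2 ⟨eC, T2⟩ => (sp_pickE al y.sn.h C).bind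
      fun E t3 ⟨E1, E2, E3, T3⟩ => ?_
  have lC : C.length ≤ a.2.1 * y.dd := by
    rw [eC, List.length_flatMap, ← a6]
    simpa using List.sum_le_card_nsmul (a.2.2.map fun v => (y.sn.ix.get v).length) y.dd
      fun x m => by obtain ⟨v, -, rfl⟩ := List.mem_map.1 m; exact hd v
  refine (sp_projAll hcls a1 hc (fun o m => ⟨((E2 o).1 m).2.1,
    hw _ ((E2 o).1 m).2.2.1 ((E2 o).1 m).2.2.2⟩) E1).bind fun J t4 ⟨J1, J2, J3, J4, T4⟩ => ?_
  have JE : ∀ i ∈ J, i.1 % 2 = 0 ∧ al.get (i.1 / 2) = true ∧ y.sn.h.get (i.1 / 2) = false :=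
    fun i m => ((E2 _).1 ((J2 _).1 (List.mem_map_of_mem m)).1).2
  have nV : a.2.1 ≤ k.nV := a6 ▸ length_le_of_lt a4 fun v m => hy.lt v ((a5 v).1 m)
  have lJ : J.length ≤ a.2.1 * y.dd := J3.trans (E3.trans lC)
  have occ : ∀ v, (J.map fun i => cnt vx.get v (i.2.2.2.1 ++ i.1 :: i.2.2.2.2)).sum ≤ y.dd := by
    intro v
    obtain ⟨v0, h0⟩ := hc.cnt_le v
    refine le_trans ?_ ((sum_count_le J1 (y.sn.ix.get v0)).trans (hd v0))
    rw [List.map_map]
    refine List.sum_le_sum fun i m => ((J4 i m).2 v).trans ((h0 _).trans ?_)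
    have := (hw _ (JE i m).2.1 (JE i m).2.2).ix v0
    rwa [show 2 * (i.1 / 2) = i.1 by have := (JE i m).1; omega] at this
  refine (sp_fin hb hcls (S := (· ∈ y.S)) (Nat.succ_pos _) (Nat.succ_le_succ nV) hP hy.dd hN
    (fun v _ => Nat.lt_succ_of_le (a2 v)) (fun u v hu hv => a3 u hu v hv) (fun i m => (J4 i m).1)
    JE J1 occ (lJ.trans (Nat.mul_le_mul_right _ (Nat.le_succ _)))).mono
    fun r t ⟨r1, r2, r3, r4, r5, r6, r7, r8, r9, r10, T5⟩ => ?_
  have un : ∀ e, al.get e = true → y.sn.h.get e = false →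
      (e ∉ r.2.2 ↔ Un vx.get y.sn y.S e) := fun e ha hh => by
    rw [r5, J2, show 2 * e / 2 = e by omega]
    refine ⟨fun c => ?_, fun c d => d.2 c⟩
    by_contra u
    refine c ⟨(E2 _).2 ⟨?_, by omega, by rwa [show 2 * e / 2 = e by omega],
      by rwa [show 2 * e / 2 = e by omega]⟩, u⟩
    have : ∃ v ∈ y.S, 0 < cnt vx0 v (2 * e :: y.sn.w.get e) := by
      by_contra d
      push Not at d
      exact u fun o m => ⟨fun s => absurd (cnt_pos m (Or.inl rfl)) (d _ ((hc.mem _).1 s)).not_gt,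
        fun s => absurd (cnt_pos m (Or.inr rfl)) (d _ ((hc.mem _).1 s)).not_gt⟩
    obtain ⟨v, s, p⟩ := this
    rw [eC, List.mem_flatMap]
    exact ⟨v, (a5 v).2 s, List.count_pos_iff.1 (p.trans_le ((hw e ha hh).ix v))⟩
  have mS : a.2.1 * y.dd ≤ k.DD * y.S.length := by
    rw [mul_comm]; exact Nat.mul_le_mul hy.dd a7
  refine ⟨⟨vx.get, ⟨fun _ _ h => h, fun o h => absurd rfl h⟩,
    fun v => (r10 v).trans (Nat.add_le_add_right (hd v) _), fun e ha hh => ?_⟩, r1,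
    fun e m => ?_, r2, r4.trans (Nat.mul_le_mul_left _ (by omega)), r6 ▸ lJ.trans mS, un, r8, ?_⟩
  · by_cases m : e ∈ r.2.2
    · exact r7 e m
    · have h0 : y.sn.h.get e = false := by
        rw [Bool.eq_false_iff] at hh ⊢
        exact fun c => hh ((r1 e).2 (Or.inl c))
      exact (hw e ha h0).un hc ((un e ha h0).1 m) hle (r8 e m)
        (fun e c => (r1 e).2 (Or.inl c)) r9
  · obtain ⟨i, b, c⟩ := List.mem_map.1 ((r5 e).1 (r3 e m))
    have := JE i b
    rw [c, show 2 * e / 2 = e by omega] at this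
    exact ⟨this.2.2, this.2.1, r3 e m⟩
  · rw [← eC, a6] at T2
    have lm := hy.lm
    generalize y.S.length = s at *
    generalize hM : k.DD * s = M at *
    have b1 : E.2.length * (3 * y.lm + 4) ≤ M * (3 * k.LM + 4) :=
      Nat.mul_le_mul (by omega) (by omega)
    have b2 : (k.Cb + k.LM + 8) * (J.length + 1) ≤ (k.Cb + k.LM + 8) * (M + 1) :=
      Nat.mul_le_mul_left _ (by omega)
    have b3 : k.cH * (a.2.1 + 1) ≤ k.cH * (s + 1) := Nat.mul_le_mul_left _ (by omega)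
    have b4 : (M + s + 1) * (k.Cb + 6 * k.LM + 30) + k.cH * (s + 1) ≤ k.Cr * (s + 1) := by
      rw [Cs.Cr, ← hM]
      nlinarith [Nat.zero_le (k.DD * (k.Cb + 6 * k.LM + 30))]
    nlinarith [Nat.zero_le (M * k.LM), Nat.zero_le (s * k.Cb), Nat.zero_le (s * k.LM)]

theorem recSpec (hb : BoxSpec g bx cls k Nx Gam) (hcls : ∀ o, cls (rv o) = cls o) :
    RecSpec g bx cls k Nx Gam := fun hy hP hN hle => sp_recomp hb hcls hy hP hN hle

end Crest.Agent.N325.Ds
end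

-- ▼ part N325/Sg/Cut
section

/-!
# Row 325 (helper13): one stage of the oracle — marks, death of objects, new spanner
-/

set_option autoImplicit false
open Finset

namespace Crest.Agent.N325.Sg

open Tw Lt

variable {g : Gl} {P : Pm} {K : ℕ} {c : Bd} {G0 : Gr} {X : Fx} {d : Dn}

theorem FxOk.cls_rv' (hX : FxOk P c G0 X) (o : ℕ) : X.cls.get (Bf.rv o) = X.cls.get o := by
  rw [hX.cls, hX.cls, Bf.rv_div]

theorem FxOk.wf' (hX : FxOk P c G0 X) : Pc.Fo.WF X.T X.T.ord.toFinset (P.D + 2) :=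
  Pc.wf_of_ok hX.ok fun e he => (hX.g0.2.2 e he).2.2.2.1

theorem FxOk.nd_mem' (hX : FxOk P c G0 X) {o : ℕ} (ho : o / 2 < X.nO) :
    nd X.ob.get o ∈ X.T.ord := by
  have h := hX.ok.obj _ (hX.ob _ ho)
  unfold nd
  split_ifs
  exacts [h.2.1, h.2.2.1]

theorem VxOk.mem' (hX : FxOk P c G0 X) {pc : Pc.St} {vx : Arr ℕ} (hp : PcOk X K pc)
    (hv : VxOk P X pc.rt vx) {o : ℕ} (ho : o / 2 < X.nO) : vx.get o ∈ X.T.ord := by
  obtain ⟨M, hM⟩ := hp
  rw [hv o, if_pos ho]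
  exact List.mem_toFinset.1 (hM.p.rt_mem hX.wf' (List.mem_toFinset.2 (hX.nd_mem' ho)))

theorem cut_RU (k : Ds.Cs) (L : ℕ) {a b : ℕ} (h : a ≤ b) : k.RU L a ≤ k.RU L b :=
  Nat.mul_le_mul_left _ (by omega)

theorem cut_TU (k : Ds.Cs) (L : ℕ) {a b : ℕ} (h : a ≤ b) : k.TU L a ≤ k.TU L b :=
  Nat.mul_le_mul_left _ (by omega)

theorem cut_ar {t1 t2 t4 C l o r r' U U' F F' T T' B : ℕ} (h1 : t1 ≤ B + 30)
    (h2 : t2 + F' ≤ F + T) (h4 : t4 ≤ l * C + 1) (hr : o + l + r' ≤ r + U) (hU : U ≤ U')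
    (hT : T ≤ T') (m : ℕ) :
    t1 + (t2 + (m + 1 + (t4 + 0))) + F' + C * r' ≤ F + C * r + T' + C * U' + B + m + 32 := by
  have h : C * (l + r') ≤ C * (r + U') := Nat.mul_le_mul_left _ (by omega)
  rw [mul_add, mul_add, mul_comm C l] at h
  omega

variable {A : Type} {bx : A → Arr ℕ → Ds.BI → R Ds.BO} {p : Pr A} {k : Ds.Cs}
  {Nx : ℕ → ℕ → Prop} {Gam : ℕ → ℕ} {L n : ℕ}

theorem sp_cutR (hX : FxOk P c G0 X) (hb : Ds.BoxSpec g (bx p.a X.cls) X.cls.get k Nx Gam)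
    (hpb : p.b = k.b) (hfu : K < p.fu) (hV : (3 * c.nb + 3) * (P.D + 2) * P.S ≤ k.nV)
    (hg : 3 * X.nO ≤ g.X)
    {xs Kl : List ℕ} {og' : Arr Bool} (hp : PcOk X K d.pc) (hv : VxOk P X d.pc.rt d.vx)
    (hq : PubOk X d.og d.pc d.pub) (hs : DsOk X d.og d.ds d.pub)
    (hI : Ds.Inv k Nx Gam X.cls.get X.gt.get X.la.get p.th1 L d.vx.get d.ds n)
    (hn : n + 1 < (k.b + 1) ^ L)
    (hxs : ∀ x ∈ xs, x ∈ X.T.ord) (hK : ∀ o ∈ Kl, o < X.nO)
    (hog : ∀ o < X.nO,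
      og'.get (X.ob.get o).1 = true ↔ d.og.get (X.ob.get o).1 = true ∧ o ∉ Kl) :
    Sp g (cutR bx p X d xs Kl) fun r t => PcOk X K r.2.2.1.1 ∧ VxOk P X r.2.2.1.1.rt r.1 ∧
      PubOk X og' r.2.2.1.1 r.2.2.2.1 ∧ DsOk X og' r.2.1 r.2.2.2.1 ∧
      Ds.Inv k Nx Gam X.cls.get X.gt.get X.la.get p.th1 L r.1.get r.2.1 (n + 1) ∧
      Pc.Off X.T.ord.toFinset d.pc r.2.2.1.1 r.2.2.1.2 ∧
      (∀ y, d.pc.cut.get y = true → r.2.2.1.1.cut.get y = true) ∧
      (∀ x ∈ xs, r.2.2.1.1.cut.get x = true) ∧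
      (∀ o, 3 * o + 1 ∉ r.2.2.2.2 → r.2.2.2.1.get o = d.pub.get o) ∧
      r.2.2.1.2.length + r.2.2.2.2.length + 19 * k.rc r.2.1 ≤ 19 * k.rc d.ds +
        19 * k.RU L (2 * (P.D + 3) * xs.length + 2 * Kl.length) + (P.D + 3) * xs.length +
        Kl.length ∧
      t + k.Phi r.2.1 + (90 * K + 151) * k.rc r.2.1 ≤ k.Phi d.ds + (90 * K + 151) * k.rc d.ds +
        k.TU L (2 * (P.D + 3) * xs.length + 2 * Kl.length) +
        (90 * K + 151) * k.RU L (2 * (P.D + 3) * xs.length + 2 * Kl.length) +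
        (P.D + 3) * xs.length * (K * (P.S + 2) + 20 * K + 60) + Kl.length + 32 := by
  unfold cutR
  refine (sp_mark hX hp hv hxs).bind fun r t1 ⟨a1, a2, a3, a4, a5, a6, a7, a8, a9, a10, a11⟩ => ?_
  have lt : ∀ y ∈ X.T.ord, y < k.nV := fun y m => (hX.ok.idb y m).trans_le hV
  rw [hpb]
  refine (Ds.sp_upd' (Ds.recSpec hb hX.cls_rv') hI a8 (fun v m => lt v (a9 v m))
    (fun e m => have := hK e m
      ⟨lt _ (a2.mem' hX a1 (by omega)), lt _ (a2.mem' hX a1 (by omega))⟩) hn).bind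
    fun u t2 ⟨b1, b2, _, _, _, _, b7, b8, b9⟩ => ?_
  refine (sp_unps (w := (r.1, d.pub, [])) fun o m => by have := hK o m; omega).bind
    fun w t3 ⟨c1, c2, c3, c4⟩ => ?_
  have al : ∀ o, u.1.al.get o = true → o < X.nO ∧ og'.get (X.ob.get o).1 = true := fun o h =>
    have h1 := (b2 o).1 h
    have h2 := hs.al o h1.1
    ⟨h2.1, (hog o h2.1).2 ⟨h2.2, h1.2⟩⟩
  dsimp only at c1 c2 c3
  refine (sp_pubs (og := og') hX hfu (fun o m => al o ((b7 o).2 (Or.inr m)).1) hg (c1 ▸ a1)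
    fun o h => ?_).bind fun w' t4 ⟨e1, e2, ⟨N, e3, e4, e5⟩, e6, e7, _, e9, e10, e11⟩ => ?_
  · obtain ⟨h1, h2⟩ := (c2 o).1 h
    obtain ⟨j1, j2, j3, j4, j5⟩ := hq o h1
    rw [c1]
    exact ⟨j1, (hog o j1).2 ⟨j2, h2⟩, a7 _ j3, a7 _ j4, a7 _ j5⟩
  rw [c1] at e3 e5 e6 e7
  have hm : r.2.2.length + 2 * Kl.length ≤ 2 * (P.D + 3) * xs.length + 2 * Kl.length := by omega
  have hU := cut_RU k L hm
  refine sp_pure.2 ⟨e1, e7 ▸ a2, e2, ⟨al, fun o h j => ?_, fun o h => ?_⟩, b1,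
    e3 ▸ a3.trans e5, e6 ▸ a5, e6 ▸ a6, fun o h => ?_, ?_, ?_⟩
  · obtain ⟨j1, j2⟩ := (hog o h).1 j
    exact (hs.cov o h j1).imp (fun q => (b2 o).2 ⟨q, j2⟩)
      fun q => (e9 o).2 (Or.inl ((c2 o).2 ⟨q, j2⟩))
  · exact (e9 o).2 (((b7 o).1 h).imp_left fun q => (c2 o).2 ⟨hs.dp o q.1, ((b2 o).1 h.1).2⟩)
  · dsimp only at h ⊢
    rw [e10, c3] at h
    simp only [List.mem_append, List.mem_reverse, List.mem_map, not_or, not_exists, not_and] at h
    have h1 : o ∉ u.2.2 := fun m => h.1 o m rfl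
    have h2 : o ∉ Kl := fun m => h.2.1 o m rfl
    rw [Bool.eq_iff_iff, e9, c2]
    tauto
  · dsimp only
    rw [e3, e10, c3]
    simp only [List.length_append, List.length_reverse, List.length_map, List.length_nil]
    omega
  · rw [c4]
    exact cut_ar a11 b9 e11 b8 hU (cut_TU k L hm) _

end Crest.Agent.N325.Sg
end

-- ▼ part N325/Sg/Pair
section

/-!
# Row 325 (helper63): the copies of the inserted edges
-/

set_option autoImplicit false

namespace Crest.Agent.N325.Sg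

open Tw Lt

variable {g : Gl} {P : Pm} {Q : ℕ} {T : LF}

theorem sp_cvR (v : ℕ) (h : P.nw v ≤ g.X) :
    Sp g (cvR T P v) fun r t => r = T.cv P v ∧ t = 0 := by
  unfold cvR LF.cv
  by_cases e : T.cop.get v = []
  · rw [if_pos (List.isEmpty_iff.2 e), if_pos e]
    exact ⟨h, rfl, rfl⟩
  · rw [if_neg (fun k => e (List.isEmpty_iff.1 k)), if_neg e]
    exact ⟨rfl, rfl⟩

/-- one row of pairs -/
theorem sp_row (a : ℕ) (bs : List ℕ) (s : ℕ × Arr (Option (ℕ × ℕ)) × List ℕ)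
    (h : 3 * (s.1 + bs.length) ≤ g.X) :
    Sp g (foldL (fun b (t : ℕ × Arr (Option (ℕ × ℕ)) × List ℕ) =>
      nat (3 * t.1) >>= fun i => pure (t.1 + 1, t.2.1.set t.1 (some (a, b)), (i + 2) :: t.2.2))
      bs s) fun r t => r.1 = s.1 + bs.length ∧
      (∀ j, (r.2.1.get j = s.2.1.get j ∧ ¬(s.1 ≤ j ∧ j < r.1)) ∨ (s.1 ≤ j ∧ j < r.1 ∧
        3 * j + 2 ∈ r.2.2 ∧ ∃ b ∈ bs, r.2.1.get j = some (a, b))) ∧
      (∀ b ∈ bs, ∃ j, s.1 ≤ j ∧ j < r.1 ∧ r.2.1.get j = some (a, b)) ∧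
      (∀ i ∈ s.2.2, i ∈ r.2.2) ∧ r.2.2.length = s.2.2.length + bs.length ∧ t = bs.length + 1 := by
  induction bs generalizing s with
  | nil => exact ⟨Nat.zero_le _, rfl, fun j => Or.inl ⟨rfl, by omega⟩, by simp, fun _ k => k, rfl, rfl⟩
  | cons b bs ih =>
    rw [List.length_cons] at h
    refine ⟨Nat.zero_le _, show 3 * s.1 ≤ g.X by omega, (ih (s.1 + 1, s.2.1.set s.1 (some (a, b)),
      (3 * s.1 + 2) :: s.2.2) (by dsimp only; omega)).mono ?_⟩
    rintro r t ⟨h1, h2, h3, h4, h5, h6⟩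
    dsimp only at h1 h2 h3 h4 h5
    have k : r.2.1.get s.1 = some (a, b) := by
      rcases h2 s.1 with k | k
      · rw [k.1, Arr.get_set_self]
      · omega
    simp only [List.length_cons] at h5 ⊢
    refine ⟨by omega, fun j => ?_, fun b' k' => ?_, fun i k => h4 i (List.mem_cons_of_mem _ k),
      by omega, by omega⟩
    · by_cases e : j = s.1
      · subst e
        exact Or.inr ⟨le_rfl, by omega, h4 _ List.mem_cons_self, b, List.mem_cons_self, k⟩
      · rcases h2 j with k | ⟨k1, k2, k3, b', k4, k5⟩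
        · exact Or.inl ⟨by rw [k.1, Arr.get_set_ne _ e], by omega⟩
        · exact Or.inr ⟨by omega, k2, k3, b', List.mem_cons_of_mem _ k4, k5⟩
    · rcases List.mem_cons.1 k' with rfl | k'
      · exact ⟨s.1, le_rfl, by omega, k⟩
      · obtain ⟨j, a1, a2, a3⟩ := h3 b' k'
        exact ⟨j, by omega, a2, a3⟩

theorem sp_pairs' (as bs : List ℕ) (s : ℕ × Arr (Option (ℕ × ℕ)) × List ℕ)
    (h : 3 * (s.1 + as.length * bs.length) ≤ g.X) :
    Sp g (pairs as bs s) fun r t => r.1 = s.1 + as.length * bs.length ∧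
      (∀ j, (r.2.1.get j = s.2.1.get j ∧ ¬(s.1 ≤ j ∧ j < r.1)) ∨ (s.1 ≤ j ∧ j < r.1 ∧
        3 * j + 2 ∈ r.2.2 ∧ ∃ a ∈ as, ∃ b ∈ bs, r.2.1.get j = some (a, b))) ∧
      (∀ a ∈ as, ∀ b ∈ bs, ∃ j, s.1 ≤ j ∧ j < r.1 ∧ r.2.1.get j = some (a, b)) ∧
      (∀ i ∈ s.2.2, i ∈ r.2.2) ∧ r.2.2.length = s.2.2.length + as.length * bs.length ∧
      t = as.length * (bs.length + 2) + 1 := by
  unfold pairs
  induction as generalizing s with
  | nil =>
    exact ⟨Nat.zero_le _, by simp, fun j => Or.inl ⟨rfl, by omega⟩, by simp, fun _ k => k, by simp,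
      by simp⟩
  | cons a as ih =>
    rw [List.length_cons, add_mul, one_mul] at h
    refine ⟨Nat.zero_le _, (sp_row a bs s (by omega)).bind ?_⟩
    rintro r t ⟨h1, h2, h3, h4, h5, h6⟩
    refine (ih r (by omega)).mono ?_
    rintro r' t' ⟨k1, k2, k3, k4, k5, k6⟩
    simp only [List.length_cons, add_mul, one_mul]
    refine ⟨by omega, fun j => ?_, fun a' p b q => ?_, fun i p => k4 i (h4 i p), by omega, by omega⟩
    · rcases k2 j with k | ⟨p1, p2, p3, a', p4, p5⟩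
      · rcases h2 j with z | ⟨z1, z2, z3, z4⟩
        · exact Or.inl ⟨k.1.trans z.1, by omega⟩
        · exact Or.inr ⟨z1, by omega, k4 _ z3, a, List.mem_cons_self, by rwa [k.1]⟩
      · exact Or.inr ⟨by omega, p2, p3, a', List.mem_cons_of_mem _ p4, p5⟩
    · rcases List.mem_cons.1 p with rfl | p
      · obtain ⟨j, z1, z2, z3⟩ := h3 b q
        refine ⟨j, z1, by omega, ?_⟩
        rcases k2 j with k | k
        · rw [k.1, z3]
        · omega
      · obtain ⟨j, z1, z2, z3⟩ := k3 a' p b q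
        exact ⟨j, by omega, z2, z3⟩

theorem sp_pairs (as bs : List ℕ) (q : ℕ) (pt : Arr (Option (ℕ × ℕ))) (l : List ℕ)
    (h : 3 * (q + as.length * bs.length) ≤ g.X) :
    Sp g (pairs as bs (q, pt, l)) fun r t =>
      (∀ j, r.2.1.get j = pt.get j ∨ (q ≤ j ∧ j < q + as.length * bs.length ∧ 3 * j + 2 ∈ r.2.2 ∧
        ∃ a ∈ as, ∃ b ∈ bs, r.2.1.get j = some (a, b))) ∧
      (∀ a ∈ as, ∀ b ∈ bs, ∃ j, q ≤ j ∧ j < q + as.length * bs.length ∧ r.2.1.get j = some (a, b)) ∧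
      (∀ i ∈ l, i ∈ r.2.2) ∧ r.2.2.length = l.length + as.length * bs.length ∧
      t ≤ as.length * (bs.length + 2) + 1 :=
  (sp_pairs' as bs (q, pt, l) h).mono fun _ _ ⟨h1, h2, h3, h4, h5, h6⟩ => by
    rw [h1] at h2 h3
    exact ⟨fun j => (h2 j).imp And.left id, h3, h4, h5, h6.le⟩

theorem sp_clear (q : ℕ) (pt : Arr (Option (ℕ × ℕ))) (h : 3 * (q + Q) ≤ g.X) :
    Sp g (clear Q q pt) fun r t =>
      (∀ j, r.1.get j = if q ≤ j ∧ j < q + Q then none else pt.get j) ∧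
      (∀ j, q ≤ j → j < q + Q → 3 * j + 2 ∈ r.2) ∧ r.2.length = Q ∧ t = Q + 1 := by
  refine (sp_forN (fun i (s : Arr (Option (ℕ × ℕ)) × List ℕ) t =>
      (∀ j, s.1.get j = if q ≤ j ∧ j < i then none else pt.get j) ∧
      (∀ j, q ≤ j → j < i → 3 * j + 2 ∈ s.2) ∧ s.2.length + q = i ∧ t + q = i) ?_
    (t := 0) ⟨fun j => by rw [if_neg (by omega)], fun j a b => by omega, by simp, by simp⟩).mono
    fun _ _ ⟨_, e, k1, k2, k3, k4⟩ => ⟨k1, k2, by omega, by omega⟩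
  rintro i s t a b ⟨k1, k2, k3, k4⟩
  refine ⟨show 3 * i ≤ g.X by omega, fun j => ?_, fun j c d => ?_, ?_, by omega⟩
  · rw [Arr.get_set, k1]
    split_ifs <;> first | rfl | omega
  · by_cases e : j = i
    · rw [e]; exact List.mem_cons_self
    · exact List.mem_cons_of_mem _ (k2 j c (by omega))
  · rw [List.length_cons]; omega

end Crest.Agent.N325.Sg
end

-- ▼ part N325/Sg/Upd

/-! # Row 325 (helper42): one stage of the oracle — updates -/

set_option autoImplicit false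
open Finset

namespace Crest.Agent.N325.Sg

open Tw Lt

/-- touches of the spanner in one update -/
def mU (P : Pm) : ℕ := 2 * (P.D + 3) * (2 * (P.D + 1) * P.S) + 2 * P.S ^ 2
/-- dirty ids of one update (amortised) -/
def aU (P : Pm) (k : Ds.Cs) (L : ℕ) : ℕ :=
  19 * k.RU L (mU P) + (P.D + 3) * (2 * (P.D + 1) * P.S) + 2 * P.S ^ 2
/-- price in time of a unit of `k.rc` -/
def cT (K : ℕ) : ℕ := 90 * K + 151 + 19 * (3 * K + 7)
/-- amortised time of one update -/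
def tU (P : Pm) (K : ℕ) (k : Ds.Cs) (L : ℕ) : ℕ :=
  k.TU L (mU P) + (90 * K + 151) * k.RU L (mU P) +
    (P.D + 3) * (2 * (P.D + 1) * P.S) * (K * (P.S + 2) + 20 * K + 60) + (3 * K + 7) * aU P k L +
    3 * P.S ^ 2 + 3 * P.S + 40

variable {g : Gl} {K : ℕ} {c c' : Bd} {G0 G H : Gr} {wk : ℕ → Wk} {X : Fx} {d : Dn} {A : Type}
  {bx : A → Arr ℕ → Ds.BI → R Ds.BO} {p : Pr A} {k : Ds.Cs} {Nx : ℕ → ℕ → Prop} {Gam : ℕ → ℕ}
  {L n : ℕ}

/-- the dynamic part of the invariant -/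
structure DI (p : Pr A) (K : ℕ) (k : Ds.Cs) (Nx : ℕ → ℕ → Prop) (Gam : ℕ → ℕ) (L : ℕ) (X : Fx)
    (G0 G H : Gr) (wk : ℕ → Wk) (d : Dn) (n : ℕ) : Prop where
  dn : DnOk p.P p.Q K X G0 G d
  ds : DsOk X d.og d.ds d.pub
  di : ∃ n' ≤ n, Ds.Inv k Nx Gam X.cls.get X.gt.get X.la.get p.th1 L d.vx.get d.ds n'
  ag : Agr H wk (tb p.Q X d)
  lv : ∀ i, d.lv.get i = (tb p.Q X d i).isSome

/-- numerical hypotheses of the updates -/
structure UH (g : Gl) (p : Pr A) (K : ℕ) (c c' : Bd) (k : Ds.Cs) : Prop where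
  B : BdOk p.P p.Q K c c'
  b : p.b = k.b
  fu : K < p.fu
  nV : (3 * c.nb + 3) * (p.P.D + 2) * p.P.S ≤ k.nV
  nb : c'.nb ≤ g.X
  gb : 2 * (p.P.Hb * c.gb) ≤ g.X

/-- the result of an update -/
def UP (p : Pr A) (K : ℕ) (c' : Bd) (k : Ds.Cs) (Nx : ℕ → ℕ → Prop) (Gam : ℕ → ℕ) (L : ℕ) (X : Fx)
    (G0 G' H : Gr) (wk : ℕ → Wk) (d : Dn) (n : ℕ) (r : Dn × List Ow) (t : ℕ) : Prop :=
  Oks K c' G' H r.2 ∧ DI p K k Nx Gam L X G0 G' (apps H r.2) (wks wk r.2) r.1 (n + 1) ∧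
    r.2.length + 38 * k.rc r.1.ds ≤ 38 * k.rc d.ds + 2 * aU p.P k L ∧
    t + (k.Phi r.1.ds + cT K * k.rc r.1.ds) ≤ k.Phi d.ds + cT K * k.rc d.ds + tU p.P K k L

theorem RU_mono (k : Ds.Cs) (L : ℕ) {a b : ℕ} (h : a ≤ b) : k.RU L a ≤ k.RU L b :=
  Nat.mul_le_mul_left _ (by omega)

theorem TU_mono (k : Ds.Cs) (L : ℕ) {a b : ℕ} (h : a ≤ b) : k.TU L a ≤ k.TU L b :=
  Nat.mul_le_mul_left _ (by omega)

theorem UH.S_pos (h : UH g p K c c' k) : 1 ≤ p.P.S := by
  rw [h.B.P1.hS]; exact Nat.one_le_pow _ _ h.B.P1.s1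

theorem UH.div_eq (h : UH g p K c c' k) {q e : ℕ} : q / p.Q = e ↔ e * p.Q ≤ q ∧ q < e * p.Q + p.Q := by
  have : 0 < p.Q := by rw [h.B.hQ]; exact Nat.pow_pos h.S_pos
  rw [Nat.div_eq_iff this]; omega

theorem UH.nO (h : UH g p K c c' k) (hX : FxOk p.P c G0 X) : 3 * X.nO ≤ g.X := by
  have h1 := hX.ok.olen
  have h2 := h.B.n2
  have h3 := h.nb
  rw [h.B.hQ] at h2
  rw [hX.nO]; omega

theorem UH.eQ (h : UH g p K c c' k) {e : ℕ} (he : e ≤ c.nb) : 3 * (e * p.Q + p.Q) ≤ g.X := by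
  have h1 := h.B.n3
  have h2 := h.nb
  have : e * p.Q + p.Q ≤ (c.nb + 1) * p.Q := by nlinarith
  omega

/-- the last step of every update -/
theorem sp_fin' (h : UH g p K c c' k) (hX : FxOk p.P c G0 X) {G' : Gr} (hG : G'.Ok c)
    (I : DI p K k Nx Gam L X G0 G H wk d n) {d' : Dn} {w : Wo} (hlv : d'.lv = d.lv)
    (hd : DnOk p.P p.Q K X G0 G' ⟨d'.ed, d'.og, w.1.1, d'.vx, d'.ds, w.2.1, d'.pt, d'.lv⟩)
    (hs : DsOk X d'.og d'.ds w.2.1)
    (hi : ∃ n' ≤ n + 1, Ds.Inv k Nx Gam X.cls.get X.gt.get X.la.get p.th1 L d'.vx.get d'.ds n')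
    (ho : Pc.Off X.T.ord.toFinset d.pc w.1.1 w.1.2)
    (h1 : ∀ o, 3 * o + 1 ∉ w.2.2 → objT X d'.ed w.2.1 o = objT X d.ed d.pub o)
    (h2 : ∀ q, 3 * q + 2 ∉ w.2.2 → ptT p.Q d'.ed d'.pt q = ptT p.Q d.ed d.pt q) {t0 : ℕ}
    (ha : w.1.2.length + w.2.2.length + 19 * k.rc d'.ds ≤ 19 * k.rc d.ds + aU p.P k L)
    (ht : t0 + k.Phi d'.ds + (90 * K + 151) * k.rc d'.ds + (3 * K + 7) * aU p.P k L + 3
      ≤ k.Phi d.ds + (90 * K + 151) * k.rc d.ds + tU p.P K k L) :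
    Sp g (fin p.Q X d' w) fun r t => UP p K c' k Nx Gam L X G0 G' H wk d n r (t0 + t) := by
  refine (sp_fin h.B hX hG hd I.ag (hlv ▸ I.lv) (fun i a b => ?_)
    (fun u hu => List.mem_toFinset.1 (ho.ids u hu)) h.nb h.gb).mono ?_
  · unfold tb
    split_ifs with e0 e1
    · exact ho.seg (b e0)
    · exact h1 _ (by rwa [show 3 * (i / 3) + 1 = i by omega])
    · exact h2 _ (by rwa [show 3 * (i / 3) + 2 = i by omega])
  · rintro ⟨d2, l⟩ t ⟨e, k1, k2, k3, k4, k5⟩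
    dsimp only at e k1 k2 k3 k4
    have e1 : d2.ds = d'.ds := by rw [e]
    refine ⟨k1, ⟨?_, ?_, ?_, k2, k3⟩, by dsimp only; rw [e1]; omega, ?_⟩
    · rw [e]; exact ⟨hd.pc, hd.ed, hd.og, hd.liv, hd.vx, hd.pub, hd.pt, hd.ins⟩
    · rw [e]; exact hs
    · rw [e]; exact hi
    · have := Nat.mul_le_mul_left (3 * K + 7) ha
      dsimp only
      rw [e1]
      unfold cT
      nlinarith

/-- the bounds of `cutR` in closed form -/
theorem cut_bd {P : Pm} {x y : ℕ} (hx : x ≤ 2 * (P.D + 1) * P.S) (hy : y ≤ P.S ^ 2) :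
    k.RU L (2 * (P.D + 3) * x + 2 * y) ≤ k.RU L (mU P) ∧
    k.TU L (2 * (P.D + 3) * x + 2 * y) ≤ k.TU L (mU P) ∧
    (90 * K + 151) * k.RU L (2 * (P.D + 3) * x + 2 * y) ≤ (90 * K + 151) * k.RU L (mU P) ∧
    (P.D + 3) * x ≤ (P.D + 3) * (2 * (P.D + 1) * P.S) ∧
    (P.D + 3) * x * (K * (P.S + 2) + 20 * K + 60)
      ≤ (P.D + 3) * (2 * (P.D + 1) * P.S) * (K * (P.S + 2) + 20 * K + 60) := by
  have h : 2 * (P.D + 3) * x + 2 * y ≤ mU P :=
    Nat.add_le_add (Nat.mul_le_mul_left _ hx) (Nat.mul_le_mul_left _ hy)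
  exact ⟨RU_mono k L h, TU_mono k L h, Nat.mul_le_mul_left _ (RU_mono k L h),
    Nat.mul_le_mul_left _ hx, Nat.mul_le_mul_right _ (Nat.mul_le_mul_left _ hx)⟩

theorem sp_delO (h : UH g p K c c' k) (hX : FxOk p.P c G0 X)
    (hb : Ds.BoxSpec g (bx p.a X.cls) X.cls.get k Nx Gam) (hn : n + 1 < (k.b + 1) ^ L)
    (I : DI p K k Nx Gam L X G0 G H wk d n) {e : ℕ} (he : d.og.get e = true)
    (hG : (G.app (e, none)).Ok c) :
    Sp g (delO bx p X d e) (UP p K c' k Nx Gam L X G0 (G.app (e, none)) H wk d n) := by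
  obtain ⟨n', hn', hI⟩ := I.di
  have htc := hX.ok.tc e
  have hoe := hX.oe e
  unfold delO
  refine (sp_cutR (og' := d.og.set e false) hX hb h.b h.fu h.nV (h.nO hX) I.dn.pc I.dn.vx I.dn.pub
    I.ds hI (by omega) (fun x hx => ((htc.2.2 x).1 hx).1) (fun o ho => ((hoe.2.2 o).1 ho).1)
    fun o ho => ?_).bind ?_
  · rw [hoe.2.2, Arr.get_set]
    split_ifs with a <;> simp [a, ho]
  rintro ⟨vx, ds, w⟩ t ⟨k1, k2, k3, k4, k5, k6, k7, k8, k9, k10, k11⟩
  dsimp only at k1 k2 k3 k4 k5 k6 k7 k8 k9 k10 k11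
  obtain ⟨b1, b2, b3, b4, b5⟩ := cut_bd (k := k) (L := L) (K := K) htc.2.1 hoe.2.1
  have hne : ∀ {e'}, (d.og.set e false).get e' = true → e' ≠ e ∧ d.og.get e' = true := by
    intro e' j
    rw [Arr.get_set] at j
    split_ifs at j with a
    exact ⟨a, j⟩
  refine sp_fin' h hX hG I (d' := ⟨d.ed, d.og.set e false, d.pc, vx, ds, d.pub, d.pt, d.lv⟩) rfl
    ⟨k1, fun e' j => I.dn.ed e' (mem_of_mem_erase j), fun e' j => ?_, fun x hx j a ha => ?_, k2, k3,
      fun q ab j => ?_, fun e' j1 j2 => ?_⟩ k4 ⟨n' + 1, by omega, k5⟩ k6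
    (fun o j => by unfold objT; rw [k9 o j]) (fun _ _ => rfl)
    (by unfold aU; dsimp only; omega) (by unfold tU; dsimp only; omega)
  · have j1 := I.dn.og e' (hne j).2
    exact ⟨j1.1, mem_erase.2 ⟨(hne j).1, j1.2.1⟩, j1.2.2⟩
  · have j1 : d.pc.cut.get x = false := by
      by_contra j1
      rw [k7 x (by simpa using j1)] at j
      cases j
    have j2 : a.1 ≠ e := fun j2 => by
      rw [k8 x ((htc.2.2 x).2 ⟨hx, a.2, by rw [← j2]; exact ha⟩)] at j
      cases j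
    rw [Arr.get_set_ne _ j2]
    exact I.dn.liv x hx j1 a ha
  · obtain ⟨j1, j2, j3⟩ := I.dn.pt q ab j
    have j4 : q / p.Q ≠ e := fun j4 => by rw [j4, he] at j2; cases j2
    exact ⟨mem_erase.2 ⟨j4, j1⟩, by rw [Arr.get_set_ne _ j4]; exact j2, j3⟩
  · rw [Arr.get_set_ne _ (mem_erase.1 j1).1] at j2
    have j3 := I.dn.ins e' (mem_of_mem_erase j1) j2
    exact ⟨fun x hx => k7 x (j3.1 x hx), j3.2⟩

theorem sp_delN (h : UH g p K c c' k) (hX : FxOk p.P c G0 X)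
    (I : DI p K k Nx Gam L X G0 G H wk d n) {e : ℕ} (he : d.og.get e = false) (hE : e ≤ c.nb)
    (hG : (G.app (e, none)).Ok c) :
    Sp g (delN p X d e) (UP p K c' k Nx Gam L X G0 (G.app (e, none)) H wk d n) := by
  obtain ⟨n', hn', hI⟩ := I.di
  have hq := h.eQ hE
  have hQ := h.B.hQ
  unfold delN
  rw [sp_bind, sp_nat]
  refine ⟨by omega, (sp_clear _ _ hq).bind ?_⟩
  rintro ⟨pt, l⟩ t ⟨k1, k2, k3, k4⟩
  dsimp only at k1 k2 k3
  have hpt : ∀ q, q / p.Q ≠ e → pt.get q = d.pt.get q := fun q j => by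
    rw [k1, if_neg (mt h.div_eq.2 j)]
  refine (sp_fin' h hX hG I (d' := ⟨d.ed, d.og, d.pc, d.vx, d.ds, d.pub, pt, d.lv⟩)
    (w := ((d.pc, []), d.pub, l)) (t0 := t) rfl
    ⟨I.dn.pc, fun e' j => I.dn.ed e' (mem_of_mem_erase j), fun e' j => ?_, I.dn.liv, I.dn.vx,
      I.dn.pub, fun q ab j => ?_, fun e' j1 j2 => ?_⟩ I.ds ⟨n', by omega, hI⟩ (Pc.Off.refl _ _)
    (fun _ _ => rfl) (fun q j => ?_) (by unfold aU; dsimp only; simp only [List.length_nil]; omega)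
    (by unfold tU; dsimp only; omega)).mono fun r u j => by simpa using j
  · have j1 := I.dn.og e' j
    exact ⟨j1.1, mem_erase.2 ⟨fun a => (by rw [a, he] at j; cases j), j1.2.1⟩, j1.2.2⟩
  · have j4 : q / p.Q ≠ e := fun j4 => by
      have : pt.get q = some ab := j
      rw [k1, if_pos (h.div_eq.1 j4)] at this
      cases this
    obtain ⟨j1, j2⟩ := I.dn.pt q ab (hpt q j4 ▸ j)
    exact ⟨mem_erase.2 ⟨j4, j1⟩, j2⟩
  · have j3 := I.dn.ins e' (mem_of_mem_erase j1) j2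
    refine ⟨j3.1, fun a ha b hb => ?_⟩
    obtain ⟨q, j4, j5⟩ := j3.2 a ha b hb
    exact ⟨q, j4, (hpt q (j4 ▸ (mem_erase.1 j1).1)).trans j5⟩
  · unfold ptT
    rw [hpt q fun j4 => j (k2 q (h.div_eq.1 j4).1 (h.div_eq.1 j4).2)]

theorem cv_len {P : Pm} {m nb : ℕ} {T : LF} (h : T.Ok G0 P m nb) (hS : 1 ≤ P.S) (v : ℕ) :
    (T.cv P v).length ≤ P.S := by
  unfold LF.cv
  split_ifs
  · exact hS
  · exact (h.cop v).2.1

theorem UH.nw (h : UH g p K c c' k) {v : ℕ} (hv : v ≤ c.nb) : p.P.nw v ≤ g.X := by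
  have h1 := h.B.n1
  have h2 := h.nb
  have h3 : (3 * v * (p.P.D + 2) + (p.P.D + 1)) * p.P.S ≤ (3 * c.nb + 3) * (p.P.D + 2) * p.P.S :=
    Nat.mul_le_mul_right _ (by nlinarith)
  unfold Pm.nw Pm.nd
  omega

theorem sp_insN (h : UH g p K c c' k) (hX : FxOk p.P c G0 X)
    (hb : Ds.BoxSpec g (bx p.a X.cls) X.cls.get k Nx Gam) (hn : n + 1 < (k.b + 1) ^ L)
    (I : DI p K k Nx Gam L X G0 G H wk d n) {e : ℕ} {x : Ed} (he : e ∉ G.E)
    (hG : (G.app (e, some x)).Ok c) :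
    Sp g (insN bx p X d e x) (UP p K c' k Nx Gam L X G0 (G.app (e, some x)) H wk d n) := by
  obtain ⟨n', hn', hI⟩ := I.di
  have hx : c.ed e x := by simpa [Gr.app] using hG.2.2 e (mem_insert_self _ _)
  have hq := h.eQ hx.1
  have hQ := h.B.hQ
  have hS := h.S_pos
  have c1 := hX.ok.cop x.a
  have c2 := hX.ok.cop x.b
  have l1 := cv_len hX.ok hS x.a
  have l2 := cv_len hX.ok hS x.b
  have l3 : (X.T.cv p.P x.a).length * (X.T.cv p.P x.b).length ≤ p.Q := by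
    rw [hQ, sq]; exact Nat.mul_le_mul l1 l2
  have og0 : ∀ {e'}, d.og.get e' = true → e' ≠ e := fun j a => he (a ▸ (I.dn.og _ j).2.1)
  have ed' : ∀ {e'}, e' ≠ e → (G.app (e, some x)).ed e' = G.ed e' := fun j =>
    Function.update_of_ne j _ _
  have ed0 : (G.app (e, some x)).ed e = x := Function.update_self _ _ _
  unfold insN
  refine (sp_revAppL _ _).bind ?_
  rintro _ t0 ⟨rfl, ht0⟩
  refine (sp_cutR (og' := d.og) hX hb h.b h.fu h.nV (h.nO hX) I.dn.pc I.dn.vx I.dn.pub I.ds hI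
    (by omega) (fun y hy => ?_) (by simp) (by simp)).bind ?_
  · rcases List.mem_append.1 hy with j | j
    · exact (c1.2.2 y (List.mem_reverse.1 j)).1
    · exact (c2.2.2 y j).1
  rintro ⟨vx, ds, w⟩ t ⟨k1, k2, k3, k4, k5, k6, k7, k8, k9, k10, k11⟩
  dsimp only at k1 k2 k3 k4 k5 k6 k7 k8 k9 k10 k11
  have l4 : ((X.T.cop.get x.a).reverse ++ X.T.cop.get x.b).length ≤ 2 * (p.P.D + 1) * p.P.S := by
    rw [List.length_append, List.length_reverse]
    have := c1.2.1; have := c2.2.1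
    nlinarith
  obtain ⟨b1, b2, b3, b4, b5⟩ := cut_bd (k := k) (L := L) (K := K) l4
    (Nat.zero_le _ : ([] : List ℕ).length ≤ _)
  refine (sp_cvR _ (h.nw hx.2.1)).bind ?_
  rintro _ _ ⟨rfl, rfl⟩
  refine (sp_cvR _ (h.nw hx.2.2.1)).bind ?_
  rintro _ _ ⟨rfl, rfl⟩
  rw [sp_bind, sp_nat]
  refine ⟨by omega, (sp_pairs _ _ _ _ _ (by omega)).bind ?_⟩
  rintro ⟨q', pt, l⟩ t2 ⟨m1, m2, m3, m4, m5⟩
  dsimp only at m1 m2 m3 m4
  have hpt : ∀ q, q / p.Q ≠ e → pt.get q = d.pt.get q := fun q j =>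
    (m1 q).resolve_right fun a => j (h.div_eq.2 ⟨a.1, by omega⟩)
  have l5 : (X.T.cv p.P x.a).length * ((X.T.cv p.P x.b).length + 2) ≤ p.P.S ^ 2 + 2 * p.P.S := by
    nlinarith
  refine (sp_fin' h hX hG I (d' := ⟨d.ed.set e x, d.og, d.pc, vx, ds, d.pub, pt, d.lv⟩)
    (w := (w.1, w.2.1, l)) (t0 := t0 + t + t2) rfl
    ⟨k1, fun e' j => ?_, fun e' j => ?_, fun y hy j => I.dn.liv y hy ?_, k2, k3,
      fun q ab j => ?_, fun e' j1 j2 => ?_⟩ k4 ⟨n' + 1, by omega, k5⟩ k6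
    (fun o j => ?_) (fun q j => ?_)
    (by unfold aU; simp only [List.length_nil] at *; omega)
    (by have := c1.2.1; unfold tU; simp only [List.length_nil] at *; omega)).mono
      fun r u j => by simpa [add_assoc] using j
  · by_cases a : e' = e
    · rw [a, ed0]; exact Arr.get_set_self _ _ _
    · rw [ed' a, Arr.get_set_ne _ a]; exact I.dn.ed e' ((mem_insert.1 j).resolve_left a)
  · have j1 := I.dn.og e' j
    exact ⟨j1.1, mem_insert_of_mem j1.2.1, (ed' (og0 j)).trans j1.2.2⟩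
  · by_contra j1
    rw [k7 y (by simpa using j1)] at j
    cases j
  · have j' : pt.get q = some ab := j
    rcases m1 q with a | ⟨a1, a2, -, a, ha, b, hb, a3⟩
    · obtain ⟨j1, j2, j3⟩ := I.dn.pt q ab (a ▸ j')
      rw [ed' fun j4 : q / p.Q = e => he (j4 ▸ j1)]
      exact ⟨mem_insert_of_mem j1, j2, j3⟩
    · rw [h.div_eq.2 ⟨a1, by omega⟩, ed0]
      obtain rfl : ab = (a, b) := Option.some.inj (j'.symm.trans a3)
      exact ⟨mem_insert_self _ _, by
        by_contra j1; exact og0 (by simpa using j1) rfl, ha, hb⟩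
  · by_cases a : e' = e
    · rw [a, ed0]
      refine ⟨fun y hy => k8 y (by simpa using hy), fun a ha b hb => ?_⟩
      obtain ⟨q, j3, j4, j5⟩ := m2 a ha b hb
      exact ⟨q, h.div_eq.2 ⟨j3, by omega⟩, j5⟩
    · rw [ed' a]
      have j3 := I.dn.ins e' ((mem_insert.1 j1).resolve_left a) j2
      refine ⟨fun y hy => k7 y (j3.1 y hy), fun a' ha b hb => ?_⟩
      obtain ⟨q, j4, j5⟩ := j3.2 a' ha b hb
      exact ⟨q, j4, (hpt q (j4 ▸ a)).trans j5⟩
  · unfold objT cpE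
    rw [k9 o fun a => j (m3 _ a)]
    split_ifs with a
    · rw [Arr.get_set_ne _ (og0 (I.dn.pub o a).2.1)]
    · rfl
  · have j1 : pt.get q = d.pt.get q := (m1 q).resolve_right fun a => j a.2.2.1
    unfold ptT cpE
    rw [j1]
    cases a : d.pt.get q with
    | none => rfl
    | some ab =>
      dsimp only
      rw [Arr.get_set_ne _ fun j4 : q / p.Q = e => he (j4 ▸ (I.dn.pt q ab a).1)]

theorem inv_iff {s : St A} : Inv p c K k Nx Gam L s G H wk n ↔ s.1 = p ∧ G.Ok c ∧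
    ∃ G0, FxOk p.P c G0 s.2.1 ∧ DI p K k Nx Gam L s.2.1 G0 G H wk s.2.2 n :=
  ⟨fun ⟨a, b, G0, j1, j2, j3, j4, j5, j6⟩ => ⟨a, b, G0, j1, j2, j3, j4, j5, j6⟩,
    fun ⟨a, b, G0, j1, j2, j3, j4, j5, j6⟩ => ⟨a, b, G0, j1, j2, j3, j4, j5, j6⟩⟩

/-- potential for the recourse -/
def rcS (k : Ds.Cs) (s : St A) : ℕ := 38 * k.rc s.2.2.ds
/-- potential for the time -/
def PhiS (K : ℕ) (k : Ds.Cs) (s : St A) : ℕ := k.Phi s.2.2.ds + cT K * k.rc s.2.2.ds

/-- **the field `upd` of the specification of the stage** -/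
theorem sp_upd (h : UH g p K c c' k)
    (hb : ∀ G0 X, FxOk p.P c G0 X → Ds.BoxSpec g (bx p.a X.cls) X.cls.get k Nx Gam)
    (hn : n + 1 < (k.b + 1) ^ L) {s : St A} (o : Op) (I : Inv p c K k Nx Gam L s G H wk n)
    (ho : G.ok o) (hG : (G.app o).Ok c) :
    Sp g (upd bx s o) fun r t => Oks K c' (G.app o) H r.2 ∧
      Inv p c K k Nx Gam L r.1 (G.app o) (apps H r.2) (wks wk r.2) (n + 1) ∧
      r.2.length + rcS k r.1 ≤ rcS k s + 2 * aU p.P k L ∧
      t + PhiS K k r.1 ≤ PhiS K k s + tU p.P K k L := by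
  obtain ⟨p', X, d⟩ := s
  obtain ⟨rfl, hG0, G0, hX, I⟩ := inv_iff.1 I
  unfold upd
  refine Sp.bind (Q := UP p' K c' k Nx Gam L X G0 (G.app o) H wk d n) ?_
    fun r t j => ⟨j.1, inv_iff.2 ⟨rfl, hG, G0, hX, j.2.1⟩, j.2.2.1, j.2.2.2⟩
  obtain ⟨e, _ | x⟩ := o
  · dsimp only
    split_ifs with a
    · exact sp_delO h hX (hb G0 X hX) hn I a hG
    · exact sp_delN h hX I (by simpa using a) (hG0.2.2 e ho).1 hG
  · exact sp_insN h hX (hb G0 X hX) hn I ho hG

end Crest.Agent.N325.Sg
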