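import Crest.Agent.N325.Sg.Par
import Crest.Agent.N325.Sg.Sub
import Crest.Agent.N325.Tw.Tower
import Crest.Agent.N325.Tw.Bot
import Crest.Agent.N325.Bf.Pass
import Crest.Agent.N325.Bf.Impl0
import Crest.Agent.N325.Ds.Defs
import Crest.Agent.N325.M0.Std
import Crest.Agent.N325.Sg.Defs

-- ▼ part N325/Sg/Asym
section

/-!
# N325 / Sg (helper51): the tower from its stages, and the size of its constants
-/

set_option autoImplicit false

namespace Crest.Agent.N325.Sg

open Tw Filter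

/-- **what the users of the oracle see**: `G` bounds all losses -/
structure TCB (G m nb lb gb ψ wt θ κ : ℕ) (k : TC) : Prop where
  hm : m ≤ k.c.m
  hnb : nb ≤ k.c.nb
  hlb : k.c.lb = lb
  hgb : k.c.gb = gb
  ψ' : k.ψ = ψ
  th : k.th ≤ ψ * G
  er : k.er ≤ G * θ
  rp : k.rp ≤ G * θ + κ
  wt' : k.wt = wt
  cc : 2 ≤ k.cc
  AU : k.AU ≤ G
  AS : ∀ E, κ ≤ E * θ → k.AS ≤ G * (1 + (wt + G) * E)
  AR : k.AR ≤ (m + 1) * G

namespace TP

variable (p : TP)

/-- `m L ≤ (m + 1) * cm` -/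
def cm : ℕ := 4 * p.RU * 2 ^ p.L

/-- the bound on all losses -/
def G : ℕ := p.A ^ p.L + (p.ρ + 1) ^ p.L + (p.L + 1) * (p.cc + 1) +
  (p.U + p.V + 1 + p.cm * p.W) * p.Q ^ p.L

variable {p}

theorem rt_pow_le (L m : ℕ) : rt L m ^ L ≤ 2 ^ L * (2 * m + 2) := by
  rw [rt, ← pow_mul, add_mul, one_mul, pow_add, mul_comm]
  refine Nat.mul_le_mul_left _ (le_trans ?_ (two_pow_log_succ_le _))
  exact Nat.pow_le_pow_right two_pos ((Nat.div_mul_le_self _ _).trans (Nat.le_succ _))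

theorem m_top {m : ℕ} (hr : p.r = rt p.L m) : p.m p.L ≤ (m + 1) * p.cm := by
  have := Nat.mul_le_mul_left (2 * p.RU) (rt_pow_le p.L m)
  rw [TP.m, hr, cm]
  exact this.trans (le_of_eq (by ring))

theorem lt_m_top {m : ℕ} (hL : 1 ≤ p.L) (hU : 1 ≤ p.RU) (hr : p.r = rt p.L m) : m < p.m p.L := by
  rw [TP.m, hr]
  exact (lt_rt_pow hL m).trans_le (Nat.le_mul_of_pos_left _ (by omega))

theorem tcb {X θ κ m nb : ℕ} (h : p.Ok X θ κ) (hL : 1 ≤ p.L) (hr : p.r = rt p.L m)
    (hn : nb ≤ p.nb) : TCB p.G m nb p.lb p.gb p.ψ p.wt θ κ (p.tc θ κ p.L) := by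
  have hq : 1 ≤ p.Q ^ p.L := Nat.one_le_pow _ _ (by have := h.RU1; simp only [Q]; omega)
  have e : p.G = p.A ^ p.L + (p.ρ + 1) ^ p.L + (p.L + 1) * (p.cc + 1) +
      (p.U * p.Q ^ p.L + (p.V + 1) * p.Q ^ p.L + p.cm * p.W * p.Q ^ p.L) := by rw [G]; ring
  refine ⟨(lt_m_top hL h.RU1 hr).le, by simpa [tc, bd] using hn, by simp [tc, bd],
    by simp [tc, bd], rfl, Nat.mul_le_mul_left _ (by omega), ?_, ?_, by simp [tc],
    le_trans (Nat.le_add_left _ _) h.cc, by simp only [tc]; omega, fun E hE => ?_, ?_⟩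
  · simp only [tc]; rw [mul_comm]; exact Nat.mul_le_mul_right _ (by omega)
  · simp only [tc]; rw [mul_comm]
    have : (p.L + 1) * 1 ≤ (p.L + 1) * (p.cc + 1) := Nat.mul_le_mul_left _ (by omega)
    exact Nat.add_le_add_right (Nat.mul_le_mul_right _ (by omega)) _
  · have a1 : (p.L + 1) * p.cc ≤ (p.L + 1) * (p.cc + 1) := Nat.mul_le_mul_left _ (by omega)
    have a2 : (p.wt + (p.L + 1) * p.cc) * κ / θ ≤ (p.wt + p.G) * E :=
      Nat.div_le_of_le_mul ((Nat.mul_le_mul (show _ ≤ p.wt + p.G by omega) hE).trans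
        (le_of_eq (by ring)))
    have a3 : 1 * p.Q ^ p.L ≤ (p.V + 1) * p.Q ^ p.L := Nat.mul_le_mul_right _ (by omega)
    have a4 : (p.wt + p.G) * E * p.Q ^ p.L ≤ (p.wt + p.G) * E * p.G :=
      Nat.mul_le_mul_left _ (by omega)
    have a5 := Nat.mul_le_mul_right (p.Q ^ p.L) a2
    simp only [tc, S0]
    calc (p.V + ((p.wt + (p.L + 1) * p.cc) * κ / θ + 1)) * p.Q ^ p.L
        = (p.V + 1) * p.Q ^ p.L + (p.wt + (p.L + 1) * p.cc) * κ / θ * p.Q ^ p.L := by ring
      _ ≤ p.G + (p.wt + p.G) * E * p.G := Nat.add_le_add (by omega) (a5.trans a4)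
      _ = _ := by ring
  · simp only [tc]
    calc p.m p.L * p.W * p.Q ^ p.L ≤ (m + 1) * p.cm * p.W * p.Q ^ p.L :=
          Nat.mul_le_mul_right _ (Nat.mul_le_mul_right _ (m_top hr))
      _ = (m + 1) * (p.cm * p.W * p.Q ^ p.L) := by ring
      _ ≤ _ := Nat.mul_le_mul_left _ (by omega)

/-- **the tower** -/
theorem tower {S P : Type} {g : Gl} {θ κ : ℕ} {σ : Stage S P} {ps : ℕ → P} (h : p.Ok g.X θ κ)
    (hX : p.Kb * (p.gb * p.ql ^ p.L + p.ψ * (p.lb * p.ql ^ p.L)) ≤ g.X) (hm : p.Kb ≤ g.X)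
    (hs : ∀ i < p.L, ∃ I Φ rc, StageSpec g σ (ps i) (p.sc i) I Φ rc) :
    ∃ I Ψ, TowerSpec g θ κ (Tw.tower θ κ σ (Tw.Bot.bot p.ψ) p.L) (p.tc θ κ p.L)
      (Shape ps (fun i => p.r ^ i) p.L) I Ψ :=
  tower_spec (k := p.tc θ κ) (sc := p.sc) (Z := p.Z)
    (Tw.Bot.botSpec (c := p.bd 0) hX ((Nat.le_succ _).trans hm)) (fitB h) p.L hs fun _ hi => fit h hi

/-- the losses are `N ^ o(1)` -/
theorem subQ_G {p : ℕ → TP} (hL : ∀ N, (p N).L = lev N) (hr : SubQ fun N => (p N).r)
    (hU : SubL fun N => (p N).RU) (hK : SubQ fun N => (p N).K) (hρ : SubL fun N => (p N).ρ)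
    (hA : SubL fun N => (p N).A) (hT : SubQ fun N => (p N).TU) (hB : SubQ fun N => (p N).Tb)
    (hc : SubQ fun N => (p N).cc) : SubQ fun N => (p N).G := by
  have h1 := hA.pow_lev
  have h2 := (hρ.add (SubL.const 1)).pow_lev
  have h3 := ((SubL.const 16).mul hU).pow_lev
  have h4 := (SubL.const 2).pow_lev
  have h5 := hU.subQ
  simp only [G, cm, U, V, W, Q, Tz, Kb, m, hL, pow_zero, mul_one]
  fun_prop

theorem subQ_cm {p : ℕ → TP} (hL : ∀ N, (p N).L = lev N) (hU : SubL fun N => (p N).RU) :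
    SubQ fun N => (p N).cm := by
  have h4 := (SubL.const 2).pow_lev
  have h5 := hU.subQ
  simp only [cm, hL]
  fun_prop

end TP

/-- every `SubQ` function is eventually at most `N` -/
theorem _root_.Crest.Agent.N325.SubQ.le_self {G : ℕ → ℕ} (h : SubQ G) : ∀ᶠ N in atTop, G N ≤ N := by
  simpa only [one_mul] using h.subP.neg 1

end Crest.Agent.N325.Sg
end

-- ▼ part N325/Bf/Step
section

/-!
# Row 325 (helper13): the four cases of one butterfly step keep the invariant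
-/

set_option autoImplicit false

namespace Crest.Agent.N325.Bf

open Finset

variable {C : Ctx} {len p th bud : ℕ} {H0 : List ℕ} {F0 : List It} {dn : List (It × It)} {s : PS}
  {x : It × It}

theorem perm_step {α : Type} {a : α} {A F D F0 : List α} (h : (A ++ F).Perm (D ++ F0)) :
    (a :: A ++ F).Perm (D ++ [a] ++ F0) := by
  rw [List.append_assoc]
  exact (h.cons a).trans List.perm_middle.symm

theorem hs_step (I : PI C len p th bud H0 F0 dn s) :
    ∀ y ∈ s.2.2.1, y ∈ H0 ∨ ∃ z ∈ dn ++ [x], y = z.2.1 := fun y m =>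
  (I.hs y m).imp id fun ⟨z, a, e⟩ => ⟨z, List.mem_append_left _ a, e⟩

theorem us_step (I : PI C len p th bud H0 F0 dn s) :
    ∃ U : List ℕ, (∀ v, s.2.1.get v = U.count v) ∧
      U.length + 2 * len * H0.length ≤ 2 * len * s.2.2.1.length ∧
      s.2.2.2.2.length ≤ F0.length +
        ∑ v ∈ U.toFinset.filter (fun v => bud ≤ U.count v * th), ld C.vx v (dn ++ [x]) := by
  obtain ⟨U, a, b, c⟩ := I.us
  exact ⟨U, a, b, c.trans (Nat.add_le_add_left (ld_mono_sum subset_rfl) _)⟩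

/-- the digits agree -/
theorem PI.same (I : PI C len p th bud H0 F0 dn s) (hx : C.It H0 len x.1) (he : x.1.1 = x.2.1)
    (hp : C.nu x.1.2.1 % p = C.nu x.1.2.2.1 % p)
    (hd : C.nu x.1.2.1 / p % C.b = C.nu x.1.2.2.1 / p % C.b) :
    PI C len p th bud H0 F0 (dn ++ [x]) (s.1, s.2.1, s.2.2.1, x :: s.2.2.2.1, s.2.2.2.2) where
  al y m := by
    rcases List.mem_cons.1 m with rfl | m
    · exact ⟨hx.mono I.h0 (by omega), he, mod_step hp hd⟩
    · exact I.al y m
  pm := by simpa using perm_step (a := x.2) I.pm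
  rp := I.rp
  h0 := I.h0
  hs := hs_step (s := s) I
  ch := by have := I.ch; simp only [List.length_append, List.length_singleton]; omega
  us := us_step (s := s) I
  ub := I.ub
  oc v := by have := I.oc v; simp only [ld_cons, ld_append, ld_nil]; omega

/-- the item fails -/
theorem PI.fail (I : PI C len p th bud H0 F0 dn s) (hb : 0 < bud)
    (hw : ∃ o ∈ x.1.w, bud ≤ s.2.1.get (C.vx o) * th ∨ bud ≤ s.2.1.get (C.vx (rv o)) * th) :
    PI C len p th bud H0 F0 (dn ++ [x]) (s.1, s.2.1, s.2.2.1, s.2.2.2.1, x.2 :: s.2.2.2.2) where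
  al := I.al
  pm := by simpa using List.perm_middle.trans (perm_step (a := x.2) I.pm)
  rp := I.rp
  h0 := I.h0
  hs := hs_step (s := s) I
  ch := by have := I.ch; simp only [List.length_append, List.length_singleton]; omega
  us := by
    obtain ⟨U, a, b, c⟩ := I.us
    refine ⟨U, a, b, ?_⟩
    obtain ⟨v, hv, hc⟩ : ∃ v, bud ≤ U.count v * th ∧ 0 < cnt C.vx v x.1.w := by
      obtain ⟨o, m, h | h⟩ := hw
      · exact ⟨_, a _ ▸ h, cnt_pos m (Or.inl rfl)⟩
      · exact ⟨_, a _ ▸ h, cnt_pos m (Or.inr rfl)⟩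
    have hU : v ∈ U.toFinset.filter (fun v => bud ≤ U.count v * th) := by
      refine mem_filter.2 ⟨List.mem_toFinset.2 (List.count_pos_iff.1 (Nat.pos_of_ne_zero ?_)), hv⟩
      intro e; rw [e] at hv; omega
    have h1 : cnt C.vx v x.1.w ≤
        ∑ v ∈ U.toFinset.filter (fun v => bud ≤ U.count v * th), cnt C.vx v x.1.w :=
      single_le_sum (f := fun v => cnt C.vx v x.1.w) (fun _ _ => Nat.zero_le _) hU
    simp only [ld_append, ld_cons, ld_nil, add_zero, sum_add_distrib, List.length_cons]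
    omega
  ub := I.ub
  oc v := by have := I.oc v; simp only [ld_cons, ld_append, ld_nil]; omega

/-- the item follows the representative -/
theorem PI.follow (hC : C.Ok) (I : PI C len p th bud H0 F0 dn s) (hx : C.It H0 len x.1)
    (he : x.1.1 = x.2.1) (hp : C.nu x.1.2.1 % p = C.nu x.1.2.2.1 % p) {key : ℕ}
    (hk : key = (C.cls x.1.1 * C.n + C.nu x.1.2.1) * C.b + C.nu x.1.2.2.1 / p % C.b)
    (h0 : 0 < (s.1.get key).1) :
    PI C len p th bud H0 F0 (dn ++ [x])
      (s.1.set key ((s.1.get key).1 - 1, (s.1.get key).2), s.2.1, s.2.2.1,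
        ((x.1.1, (s.1.get key).2.1, x.1.2.2.1, (s.1.get key).2.2 ++ x.1.2.2.2.1, x.1.2.2.2.2), x.2)
          :: s.2.2.2.1, s.2.2.2.2) := by
  have hd : C.nu x.1.2.2.1 / p % C.b < C.b := Nat.mod_lt _ hC.bpos
  have hlt : key < C.La * C.n * C.b := hk ▸ key_lt hx.cl (hC.lt _ hx.sa) hd
  obtain ⟨A, c, d, e, sA, db, st, wk, al, ln, m1, m2⟩ := (I.rp key).2 h0
  obtain ⟨e1, e2, e3⟩ := key_inj (hC.lt _ hx.sa) hd (hC.lt _ sA) db (hk.symm.trans e)
  have e4 : x.1.2.1 = A := hC.inj _ _ hx.sa sA e2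
  refine ⟨fun y m => ?_, by simpa using perm_step (a := x.2) I.pm, fun k => ?_, I.h0, hs_step (s := s) I, ?_,
    us_step (s := s) I, I.ub, fun v => ?_⟩
  · rcases List.mem_cons.1 m with rfl | m
    · refine ⟨⟨wk.append (e4 ▸ hx.wa), hx.wb, st, hx.sb, fun o m => ?_, hx.cl, ?_⟩, he,
        mod_step (by rw [← hp, e4]; exact m1) (by rw [e3]; exact m2)⟩
      · rcases m with m | m
        · rcases List.mem_append.1 m with m | m
          · exact e1 ▸ al o m
          · exact (hx.al o (Or.inl m)).mono I.h0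
        · exact (hx.al o (Or.inr m)).mono I.h0
      · have := hx.len
        simp only [It.w, List.length_append, List.length_cons] at this ⊢
        omega
    · exact I.al y m
  · show ((s.1.set key _).get k).1 ≤ th ∧ (0 < ((s.1.set key _).get k).1 →
      C.Rep s.2.2.1 len p k ((s.1.set key _).get k).2)
    rw [Arr.get_set]
    split_ifs with h
    · subst h
      exact ⟨(Nat.sub_le _ _).trans (I.rp k).1, fun _ => (I.rp k).2 h0⟩
    · exact I.rp k
  · have h1 := I.ch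
    have h2 := sum_set Prod.fst s.1 hlt ((s.1.get key).1 - 1, (s.1.get key).2)
    simp only [List.length_append, List.length_singleton] at h2 ⊢
    omega
  · have h1 := I.oc v
    have h2 := sum_set (fun r : ℕ × ℕ × List ℕ => r.1 * cnt C.vx v r.2.2) s.1 hlt
      ((s.1.get key).1 - 1, (s.1.get key).2)
    have h3 : ((s.1.get key).1 - 1) * cnt C.vx v (s.1.get key).2.2 + cnt C.vx v (s.1.get key).2.2
        = (s.1.get key).1 * cnt C.vx v (s.1.get key).2.2 := by
      rw [← Nat.succ_mul, Nat.succ_eq_add_one, Nat.sub_add_cancel h0]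
    simp only [ld_cons, ld_append, ld_nil, It.w, cnt_append] at h2 ⊢
    omega

/-- the item becomes the representative -/
theorem PI.pick (hC : C.Ok) (I : PI C len p th bud H0 F0 dn s) (hx : C.It H0 len x.1)
    (he : x.1.1 = x.2.1) (hp : C.nu x.1.2.1 % p = C.nu x.1.2.2.1 % p) {key : ℕ}
    (hk : key = (C.cls x.1.1 * C.n + C.nu x.1.2.1) * C.b + C.nu x.1.2.2.1 / p % C.b)
    (h0 : (s.1.get key).1 = 0) (hth : 0 < th)
    (hw : ∀ o ∈ x.1.w, s.2.1.get (C.vx o) * th < bud ∧ s.2.1.get (C.vx (rv o)) * th < bud)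
    {u : Arr ℕ} (hu : ∀ v, u.get v = s.2.1.get v + cnt C.vx v x.1.w) :
    PI C len p th bud H0 F0 (dn ++ [x])
      (s.1.set key (th - 1, x.1.2.2.1, rvL x.1.w), u, x.1.1 :: s.2.2.1,
        ((x.1.1, x.1.2.2.1, x.1.2.2.1, rvL x.1.w ++ x.1.2.2.2.1, x.1.2.2.2.2), x.2) :: s.2.2.2.1,
        s.2.2.2.2) := by
  have hd : C.nu x.1.2.2.1 / p % C.b < C.b := Nat.mod_lt _ hC.bpos
  have hlt : key < C.La * C.n * C.b := hk ▸ key_lt hx.cl (hC.lt _ hx.sa) hd
  have sub : ∀ y ∈ s.2.2.1, y ∈ x.1.1 :: s.2.2.1 := fun y m => List.mem_cons_of_mem _ m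
  have sub0 : ∀ y ∈ H0, y ∈ x.1.1 :: s.2.2.1 := fun y m => sub y (I.h0 y m)
  have alw : ∀ o ∈ rvL x.1.w, C.Al (x.1.1 :: s.2.2.1) (C.cls x.1.1) o := fun o m => by
    rw [← rv_rv o]
    refine Ctx.Al.rv hC ?_
    rcases List.mem_append.1 (mem_rvL.1 m) with m | m
    · exact (hx.al _ (Or.inl m)).mono sub0
    · rcases List.mem_cons.1 m with m | m
      · exact Or.inr ⟨by rw [m], x.1.1, List.mem_cons_self, by rw [m]⟩
      · exact (hx.al _ (Or.inr m)).mono sub0
  have hl := hx.len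
  refine ⟨fun y m => ?_, by simpa using perm_step (a := x.2) I.pm, fun k => ?_, sub0, fun y m => ?_,
    ?_, ?_, fun v => ?_, fun v => ?_⟩
  · rcases List.mem_cons.1 m with rfl | m
    · refine ⟨⟨hx.wk.rev.append hx.wa, hx.wb, hx.sb, hx.sb, fun o m => ?_, hx.cl, ?_⟩, he, rfl⟩
      · rcases m with m | m
        · rcases List.mem_append.1 m with m | m
          · exact alw o m
          · exact (hx.al o (Or.inl m)).mono sub0
        · exact (hx.al o (Or.inr m)).mono sub0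
      · simp only [It.w, List.length_append, List.length_cons, length_rvL] at hl ⊢
        omega
    · exact ⟨(I.al y m).1.mono sub le_rfl, (I.al y m).2⟩
  · show ((s.1.set key _).get k).1 ≤ th ∧ (0 < ((s.1.set key _).get k).1 →
      C.Rep (x.1.1 :: s.2.2.1) len p k ((s.1.set key _).get k).2)
    rw [Arr.get_set]
    split_ifs with h
    · subst h
      exact ⟨Nat.sub_le _ _, fun _ => ⟨_, _, _, hk, hx.sa, hd, hx.sb, hx.wk.rev, alw,
        by simpa using hl, hp.symm, rfl⟩⟩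
    · refine ⟨(I.rp k).1, fun h => ?_⟩
      obtain ⟨A, c, d, e, sA, db, st, wk, al, r⟩ := (I.rp k).2 h
      exact ⟨A, c, d, e, sA, db, st, wk, fun o m => (al o m).mono sub, r⟩
  · rcases List.mem_cons.1 m with rfl | m
    · exact Or.inr ⟨x, by simp, he⟩
    · exact hs_step (s := s) I y m
  · have h1 := I.ch
    have h2 := sum_set Prod.fst s.1 hlt (th - 1, x.1.2.2.1, rvL x.1.w)
    simp only [List.length_append, List.length_cons, List.length_nil, mul_add] at h2 ⊢
    omega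
  · obtain ⟨U, a, b, c⟩ := I.us
    refine ⟨U ++ vl C.vx x.1.w, fun v => by rw [List.count_append, count_vl, ← a]; exact hu v, ?_,
      c.trans (Nat.add_le_add_left (ld_mono_sum fun v m => ?_) _)⟩
    · simp only [List.length_append, length_vl, List.length_cons, mul_add]
      omega
    · rw [mem_filter] at m ⊢
      refine ⟨by simp [List.mem_toFinset.1 m.1], m.2.trans (Nat.mul_le_mul_right _ ?_)⟩
      rw [List.count_append]; omega
  · show u.get v * th ≤ _
    rw [hu, add_mul]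
    rcases Nat.eq_zero_or_pos (cnt C.vx v x.1.w) with h | h
    · have := I.ub v; rw [h]; omega
    · obtain ⟨o, m, e⟩ := exists_of_cnt_pos h
      have h1 : s.2.1.get v * th < bud := by
        rcases e with e | e
        · exact e ▸ (hw o m).1
        · exact e ▸ (hw o m).2
      have h2 : cnt C.vx v x.1.w * th ≤ 2 * len * th :=
        Nat.mul_le_mul_right _ ((cnt_le _ _).trans (by omega))
      omega
  · have h1 := I.oc v
    have h2 := sum_set (fun r : ℕ × ℕ × List ℕ => r.1 * cnt C.vx v r.2.2) s.1 hlt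
      (th - 1, x.1.2.2.1, rvL x.1.w)
    have h3 : (th - 1) * cnt C.vx v x.1.w + cnt C.vx v x.1.w = th * cnt C.vx v x.1.w := by
      rw [← Nat.succ_mul, Nat.succ_eq_add_one, Nat.sub_add_cancel hth]
    have h4 : cnt C.vx v (It.w (x.1.1, x.1.2.2.1, x.1.2.2.1, rvL x.1.w ++ x.1.2.2.2.1, x.1.2.2.2.2))
        = cnt C.vx v x.1.w + cnt C.vx v x.1.w := by
      simp only [It.w, cnt_append, cnt_rvL]; omega
    show ld C.vx v (_ :: _) + _ ≤ _ + th * u.get v
    rw [hu, ld_cons, h4]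
    simp only [h0, zero_mul, cnt_rvL, ld_cons, ld_append, ld_nil, mul_add] at h2 ⊢
    omega

variable {g : Gl}

theorem sp_stepIt (hC : C.Ok) {vx nu cls : Arr ℕ} (e1 : vx.get = C.vx) (e2 : nu.get = C.nu)
    (e3 : cls.get = C.cls) (hX : C.La * C.n * C.b ≤ g.X) (hth : 0 < th) (hb : 0 < bud)
    (I : PI C len p th bud H0 F0 dn s) (hx : C.It H0 len x.1) (he : x.1.1 = x.2.1)
    (hp : C.nu x.1.2.1 % p = C.nu x.1.2.2.1 % p) :
    Sp g (stepIt vx nu cls (C.n, C.b, p, th, bud) x s) fun s' t =>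
      PI C len p th bud H0 F0 (dn ++ [x]) s' ∧ t ≤ 7 * len + 7 := by
  have hl := hx.len
  unfold stepIt
  simp only [e2, e3]
  refine sp_ite.2 ⟨fun h => ⟨I.same hx he hp h, Nat.zero_le _⟩, fun _ => sp_bind.2 (sp_nat.2
    ⟨(key_lt hx.cl (hC.lt _ hx.sa) (Nat.mod_lt _ hC.bpos)).le.trans hX, sp_ite.2 ⟨fun h0 => ?_,
      fun h0 => ?_⟩⟩)⟩
  · refine (sp_appL _ _).bind fun ra t k => ⟨k.1 ▸ I.follow hC hx he hp rfl h0, ?_⟩
    obtain ⟨A, c, d, -, -, -, -, -, -, ln, -⟩ := (I.rp _).2 h0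
    have := k.2
    omega
  · unfold choose
    refine (sp_appL _ _).bind fun w t1 k1 => (sp_anyP _ _).bind fun bl t2 k2 => ?_
    have ew : w = x.1.w := k1.1
    have l1 : x.1.2.2.2.1.length ≤ len := by
      simp only [It.w, List.length_append] at hl; omega
    have := k1.2
    have := k2.2
    subst ew
    refine sp_ite.2 ⟨fun h => ⟨I.fail hb ?_, by omega⟩, fun h => ?_⟩
    · rw [k2.1, List.any_eq_true] at h
      obtain ⟨o, m, h⟩ := h
      exact ⟨o, m, by simpa [e1] using h⟩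
    · refine (sp_rvApp _ _).bind fun rw t3 k3 => (sp_addUse _ _ _).bind fun u t4 k4 =>
        (sp_appL _ _).bind fun ra t5 k5 => ?_
      have e5 : rw = rvL x.1.w := by simpa using k3.1
      have := k3.2
      have := k4.2
      have := k5.2
      subst e5
      rw [length_rvL] at this
      refine ⟨k5.1 ▸ I.pick hC hx he hp rfl (by omega) hth (fun o m => ?_) (e1 ▸ k4.1), by omega⟩
      rw [k2.1, List.any_eq_true] at h
      by_contra hc
      refine h ⟨o, m, ?_⟩
      simp only [e1, decide_eq_true_eq]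
      omega

end Crest.Agent.N325.Bf
end

-- ▼ part N325/Bf/Round
section

/-!
# Row 325 (helper13): passes and rounds of the butterfly
-/

set_option autoImplicit false

namespace Crest.Agent.N325.Bf

open Finset

variable {C : Ctx} {g : Gl}

/-- state of a round: `b ^ j`, bound on the loads, chosen edges, alive items, failed items -/
abbrev RS : Type := ℕ × ℕ × List ℕ × List (It × It) × List It

/-- one pass; `q = (n, b, T, P, θ)` -/
def pass (vx nu cls : Arr ℕ) (q : PP) (s : RS) : R RS :=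
  nat (8 * q.2.2.1 * q.2.2.2.1 * s.2.1) >>= fun bud =>
  foldL (stepIt vx nu cls (q.1, q.2.1, s.1, q.2.2.2.2, bud)) s.2.2.2.1
    (Arr.cst (0, 0, []), Arr.cst 0, s.2.2.1, [], s.2.2.2.2) >>= fun r =>
  nat (s.1 * q.2.1) >>= fun p => nat (s.2.1 * (1 + 10 * q.2.2.1 * q.2.2.2.1)) >>= fun O =>
  pure (p, O, r.2.2.1, r.2.2.2.1, r.2.2.2.2)

theorem card_blocked (U : List ℕ) (bud th : ℕ) :
    (U.toFinset.filter fun v => bud ≤ U.count v * th).card * bud ≤ U.length * th := by
  calc _ = ∑ _v ∈ U.toFinset.filter fun v => bud ≤ U.count v * th, bud := by simp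
    _ ≤ ∑ v ∈ U.toFinset.filter fun v => bud ≤ U.count v * th, U.count v * th :=
      sum_le_sum fun v m => (mem_filter.1 m).2
    _ ≤ ∑ v ∈ U.toFinset, U.count v * th := sum_le_sum_of_subset (filter_subset _ _)
    _ = U.length * th := by rw [← sum_mul, List.sum_toFinset_count_eq_length]

theorem ar_fail {u th a h h' n P T B O : ℕ} (b : u + 2 * a * h ≤ 2 * a * h')
    (a2 : th * h' ≤ th * h + 2 * n) (hl : a ≤ P) (h3 : B * (8 * T * P * O) ≤ u * th) (hP : 0 < P) :
    2 * T * (B * O) ≤ n := by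
  have a1 := Nat.mul_le_mul_left th b
  have a3 := Nat.mul_le_mul_left (2 * a) a2
  have a4 := Nat.mul_le_mul_right n hl
  have h6 : 4 * P * (2 * T * (B * O)) ≤ 4 * P * n := by linarith
  exact Nat.le_of_mul_le_mul_left h6 (by omega)

theorem ar_load {x y z u th a T P O : ℕ} (h3 : x + y ≤ z + th * u)
    (h4 : u * th ≤ 8 * T * P * O + 2 * a * th) (h5 : z ≤ O) (h6 : a * th ≤ T * P * O) :
    x ≤ O * (1 + 10 * T * P) := by linarith [Nat.zero_le y]

theorem ar_len {th h h' k n : ℕ} (a : th * h' ≤ th * h + n + k * th) (b : n ≤ 2 * (k * th))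
    (c : 0 < th) : h' ≤ h + 3 * k :=
  Nat.le_of_mul_le_mul_left (by linarith) c

/-- invariant of a round after `j` passes -/
structure RI (C : Ctx) (T P D w0 : ℕ) (H0 : List ℕ) (J : List It) (j : ℕ) (s : RS) : Prop where
  p : s.1 = C.b ^ j
  O : s.2.1 = D * (1 + 10 * T * P) ^ j
  al : ∀ x ∈ s.2.2.2.1, C.It s.2.2.1 (2 ^ j * w0) x.1 ∧ x.1.1 = x.2.1 ∧
    C.nu x.1.2.1 % s.1 = C.nu x.1.2.2.1 % s.1
  pm : (s.2.2.2.1.map Prod.snd ++ s.2.2.2.2).Perm J
  h0 : ∀ x ∈ H0, x ∈ s.2.2.1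
  hs : ∀ x ∈ s.2.2.1, x ∈ H0 ∨ ∃ y ∈ J, x = y.1
  hl : s.2.2.1.length ≤ H0.length + 3 * (C.La * C.n * C.b) * j
  fl : 2 * T * s.2.2.2.2.length ≤ J.length * j
  oc : ∀ v, ld C.vx v s.2.2.2.1 ≤ s.2.1

theorem sp_pass (hC : C.Ok) {vx nu cls : Arr ℕ} (e1 : vx.get = C.vx) (e2 : nu.get = C.nu)
    (e3 : cls.get = C.cls) {T P D w0 th j : ℕ} {H0 : List ℕ} {J : List It} {s : RS}
    (hX : C.La * C.n * C.b ≤ g.X) (hXb : C.b ^ T ≤ g.X) (hXO : D * (1 + 10 * T * P) ^ T ≤ g.X)
    (hth : 0 < th) (hD : th ≤ D) (h1 : C.La * C.n * C.b * th ≤ J.length)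
    (h2 : J.length ≤ 2 * (C.La * C.n * C.b * th)) (hP : 2 ^ T * w0 ≤ P) (hP0 : 0 < P) (hj : j < T)
    (I : RI C T P D w0 H0 J j s) :
    Sp g (pass vx nu cls (C.n, C.b, T, P, th) s) fun s' t =>
      RI C T P D w0 H0 J (j + 1) s' ∧ t ≤ J.length * (7 * P + 8) + 1 := by
  have hG : 0 < 1 + 10 * T * P := by omega
  have hlen : 2 ^ j * w0 ≤ P :=
    (Nat.mul_le_mul_right _ (Nat.pow_le_pow_right two_pos hj.le)).trans hP
  have hO : D ≤ s.2.1 := by rw [I.O]; exact Nat.le_mul_of_pos_right _ (by positivity)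
  have hO' : s.2.1 * (1 + 10 * T * P) ≤ g.X := by
    rw [I.O, mul_assoc, ← pow_succ]
    exact (Nat.mul_le_mul_left _ (Nat.pow_le_pow_right hG hj)).trans hXO
  have hb : 0 < 8 * T * P * s.2.1 := by
    have : 0 < T := by omega
    have : 0 < s.2.1 := by omega
    positivity
  have hN : s.2.2.2.1.length ≤ J.length := by
    have := I.pm.length_eq
    simp only [List.length_append, List.length_map] at this
    omega
  refine sp_bind.2 (sp_nat.2 ⟨le_trans (by
    show 8 * T * P * s.2.1 ≤ _; linarith [Nat.zero_le (T * P * s.2.1), Nat.zero_le s.2.1]) hO', ?_⟩)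
  refine (sp_foldL' (fun l r => ∃ dn, dn ++ l = s.2.2.2.1 ∧
      PI C (2 ^ j * w0) s.1 th (8 * T * P * s.2.1) s.2.2.1 s.2.2.2.2 dn r) (fun _ => 7 * P + 7)
    (fun a l r ⟨dn, e, k⟩ => ?_) ⟨[], rfl, ?_⟩).bind fun r t ⟨⟨dn, e, k⟩, ht⟩ => ?_
  · have := I.al a (by rw [← e]; simp)
    exact (sp_stepIt hC e1 e2 e3 hX hth hb k this.1 this.2.1 this.2.2).mono fun s' t k' =>
      ⟨⟨dn ++ [a], by simpa using e, k'.1⟩, by have := k'.2; omega⟩
  · exact ⟨fun _ m => (nomatch m), by simp, fun k => ⟨Nat.zero_le _, fun h => absurd h (by simp)⟩,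
      fun _ m => m, fun _ m => Or.inl m, by simp, ⟨[], by simp, by simp, by simp⟩, by simp, by simp⟩
  rw [List.append_nil] at e
  subst e
  refine sp_bind.2 (sp_nat.2 ⟨?_, sp_bind.2 (sp_nat.2 ⟨hO', ?_, ?_⟩)⟩)
  · show s.1 * C.b ≤ _
    rw [I.p, ← pow_succ]
    exact (Nat.pow_le_pow_right hC.bpos hj).trans hXb
  · have hsum : ∑ k ∈ range (C.La * C.n * C.b), (r.1.get k).1 ≤ C.La * C.n * C.b * th := by
      simpa using sum_le_sum (s := range (C.La * C.n * C.b)) fun k' _ => (k.rp k').1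
    have hch := k.ch
    refine ⟨by show s.1 * C.b = _; rw [I.p, pow_succ],
      by show s.2.1 * (1 + 10 * T * P) = _; rw [I.O, pow_succ, mul_assoc],
      fun x m => ⟨(k.al x m).1.mono (fun _ h => h) (by rw [pow_succ]; linarith), (k.al x m).2⟩,
      k.pm.trans I.pm, fun x m => k.h0 x (I.h0 x m), fun x m => ?_, ?_, ?_, fun v => ?_⟩
    · rcases k.hs x m with m | ⟨y, m, e⟩
      · exact I.hs x m
      · exact Or.inr ⟨y.2, I.pm.subset (List.mem_append_left _ (List.mem_map_of_mem m)), e⟩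
    · have h4 : r.2.2.1.length ≤ s.2.2.1.length + 3 * (C.La * C.n * C.b) :=
        ar_len (n := J.length) (by omega) h2 hth
      have := I.hl
      show r.2.2.1.length ≤ _
      rw [mul_add]; omega
    · obtain ⟨U, -, b, c⟩ := k.us
      have h3 := card_blocked U (8 * T * P * s.2.1) th
      have h4 : ∑ v ∈ U.toFinset.filter (fun v => 8 * T * P * s.2.1 ≤ U.count v * th),
          ld C.vx v s.2.2.2.1 ≤
          (U.toFinset.filter fun v => 8 * T * P * s.2.1 ≤ U.count v * th).card * s.2.1 := by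
        simpa using sum_le_sum
          (s := U.toFinset.filter fun v => 8 * T * P * s.2.1 ≤ U.count v * th) fun v _ => I.oc v
      generalize (U.toFinset.filter fun v => 8 * T * P * s.2.1 ≤ U.count v * th).card = B at h3 h4
      have h7 := ar_fail (n := J.length) b (by omega) hlen h3 hP0
      have h8 := I.fl
      have h9 : 2 * T * r.2.2.2.2.length ≤ 2 * T * (s.2.2.2.2.length + B * s.2.1) :=
        Nat.mul_le_mul_left _ (by omega)
      show 2 * T * r.2.2.2.2.length ≤ _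
      rw [mul_add] at h9
      rw [mul_add]; omega
    · have h6 : 2 ^ j * w0 ≤ T * P :=
        hlen.trans (Nat.le_mul_of_pos_left P (Nat.zero_lt_of_lt hj))
      exact ar_load (k.oc v) (k.ub v) (I.oc v) (Nat.mul_le_mul h6 (hD.trans hO))
  · have := Nat.mul_le_mul_right (7 * P + 8) hN
    simp only [List.map_const', List.sum_replicate, smul_eq_mul] at ht
    have := le_trans ht (Nat.add_le_add_right this 1)
    omega

/-- the final walk of an item -/
def fin1 (x : It × It) (W : List (ℕ × List ℕ)) : R (List (ℕ × List ℕ)) :=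
  rvApp x.1.2.2.2.2 [] >>= fun r => rvApp x.1.2.2.2.1 r >>= fun w => pure ((x.1.1, w) :: W)

/-- a correct output walk -/
def Ctx.Out (C : Ctx) (H : List ℕ) (P : ℕ) (q : ℕ × List ℕ) : Prop :=
  Wk C.vx (C.vx q.1) q.2 (C.vx (rv q.1)) ∧ q.2.length ≤ P ∧ ∀ o ∈ q.2, C.Al H (C.cls q.1) o

theorem Ctx.Out.mono {H H' : List ℕ} {P : ℕ} {q : ℕ × List ℕ} (h : C.Out H P q)
    (k : ∀ x ∈ H, x ∈ H') : C.Out H' P q := ⟨h.1, h.2.1, fun o m => (h.2.2 o m).mono k⟩

/-- load of the output at `v` -/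
def lw (vx : ℕ → ℕ) (v : ℕ) (W : List (ℕ × List ℕ)) : ℕ := (W.map fun q => cnt vx v (q.1 :: q.2)).sum

theorem sp_fin (hC : C.Ok) {H : List ℕ} {P : ℕ} {L : List (It × It)} (W : List (ℕ × List ℕ))
    (hL : ∀ x ∈ L, C.It H P x.1 ∧ x.1.1 = x.2.1 ∧ x.1.2.1 = x.1.2.2.1)
    (hW : ∀ q ∈ W, C.Out H P q) :
    Sp g (foldL fin1 L W) fun W' t => (∀ q ∈ W', C.Out H P q) ∧
      (W'.map Prod.fst).Perm ((L.map Prod.snd).map Prod.fst ++ W.map Prod.fst) ∧
      (∀ v, lw C.vx v W' = lw C.vx v W + ld C.vx v L) ∧ t ≤ L.length * (P + 3) + 1 := by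
  refine (sp_foldL' (fun l W' => (∀ x ∈ l, x ∈ L) ∧ (∀ q ∈ W', C.Out H P q) ∧
      ((l.map Prod.snd).map Prod.fst ++ W'.map Prod.fst).Perm
        ((L.map Prod.snd).map Prod.fst ++ W.map Prod.fst) ∧
      ∀ v, lw C.vx v W' + ld C.vx v l = lw C.vx v W + ld C.vx v L) (fun _ => P + 2)
    (fun a l W' ⟨k1, k2, k3, k4⟩ => ?_) ⟨fun _ m => m, hW, List.Perm.refl _, fun _ => rfl⟩).mono
    fun W' t ⟨⟨_, k2, k3, k4⟩, ht⟩ => ⟨k2, by simpa using k3, by simpa using k4, by simpa using ht⟩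
  obtain ⟨hx, he, hab⟩ := hL a (k1 a List.mem_cons_self)
  have hl := hx.len
  simp only [It.w, List.length_append, List.length_cons] at hl
  refine (sp_rvApp _ _).bind fun r t1 ⟨a1, b1⟩ => (sp_rvApp _ _).bind fun w t2 ⟨a2, b2⟩ =>
    ⟨⟨fun x m => k1 x (List.mem_cons_of_mem _ m), fun q m => ?_, ?_, fun v => ?_⟩, by omega⟩
  · rcases List.mem_cons.1 m with rfl | m
    · rw [a2, a1, List.append_nil]
      refine ⟨hx.wa.rev.append (hab ▸ hx.wb.rev), by simp; omega, fun o m => ?_⟩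
      rw [← rv_rv o]
      rcases List.mem_append.1 m with m | m
      · exact (hx.al _ (Or.inl (mem_rvL.1 m))).rv hC
      · exact (hx.al _ (Or.inr (mem_rvL.1 m))).rv hC
    · exact k2 q m
  · refine List.Perm.trans ?_ k3
    simp only [List.map_cons, List.cons_append, he]
    exact List.perm_middle
  · rw [← k4 v, a2, a1]
    simp only [lw, List.map_cons, List.sum_cons, ld_cons, It.w, cnt_append, cnt_cons, cnt_rvL,
      cnt_nil]
    omega

end Crest.Agent.N325.Bf
end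

-- ▼ part N325/Bf/Main
section

/-!
# Row 325 (helper13): the butterfly spanner with embedding of low vertex congestion
-/

set_option autoImplicit false

namespace Crest.Agent.N325.Bf

variable {C : Ctx} {g : Gl}

/-- state of the main loop: chosen edges, walks, remaining items, their number -/
abbrev MS : Type := List ℕ × List (ℕ × List ℕ) × List It × ℕ

/-- one round; `q = (n, b, T, P, D)`, `ka = La * n * b` -/
def round (vx nu cls : Arr ℕ) (q : PP) (ka : ℕ) (s : MS) : R MS :=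
  mapP (fun x : It => (x, x)) s.2.2.1 >>= fun L =>
  forN (fun _ r => pass vx nu cls (q.1, q.2.1, q.2.2.1, q.2.2.2.1, s.2.2.2 / ka) r) q.2.2.1 0
    (1, q.2.2.2.2, s.1, L, []) >>= fun r =>
  foldL fin1 r.2.2.2.1 s.2.1 >>= fun W => lenL r.2.2.2.2 >>= fun N =>
  pure (r.2.2.1, W, r.2.2.2.2, N)

/-- load of a list of items -/
def lo (vx : ℕ → ℕ) (v : ℕ) (J : List It) : ℕ := (J.map fun x => cnt vx v x.w).sum

theorem lo_append (vx : ℕ → ℕ) (v : ℕ) (J K : List It) :
    lo vx v (J ++ K) = lo vx v J + lo vx v K := by simp [lo]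

theorem lo_perm (vx : ℕ → ℕ) (v : ℕ) {J K : List It} (h : J.Perm K) : lo vx v J = lo vx v K :=
  (h.map _).sum_eq

/-- invariant of the main loop after `r` rounds -/
structure MI (C : Ctx) (T P D : ℕ) (J : List It) (r : ℕ) (s : MS) : Prop where
  sub : ∀ x ∈ s.2.2.1, x ∈ J
  ld : ∀ v, lo C.vx v s.2.2.1 ≤ D
  pm : (s.2.1.map Prod.fst ++ s.2.2.1.map Prod.fst).Perm (J.map Prod.fst)
  N : s.2.2.2 = s.2.2.1.length
  hf : s.2.2.2 * 2 ^ r ≤ J.length
  out : ∀ q ∈ s.2.1, C.Out s.1 P q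
  hs : ∀ x ∈ s.1, ∃ y ∈ J, x = y.1
  hl : s.1.length ≤ 3 * (C.La * C.n * C.b) * T * r
  lw : ∀ v, lw C.vx v s.2.1 ≤ D * (1 + 10 * T * P) ^ T * r

theorem sp_round (hC : C.Ok) {vx nu cls : Arr ℕ} (e1 : vx.get = C.vx) (e2 : nu.get = C.nu)
    (e3 : cls.get = C.cls) {T P D w0 r : ℕ} {J : List It} {s : MS}
    (hX : C.La * C.n * C.b ≤ g.X) (hXb : C.b ^ T ≤ g.X) (hXO : D * (1 + 10 * T * P) ^ T ≤ g.X)
    (hk : 0 < C.La * C.n * C.b) (hn : C.n ≤ C.b ^ T) (hT : 0 < T) (hP : 2 ^ T * w0 ≤ P)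
    (hJ : ∀ x ∈ J, C.It [] w0 x) (hD : J.length ≤ C.La * C.n * C.b * D)
    (I : MI C T P D J r s) (hc : C.La * C.n * C.b ≤ s.2.2.2) :
    Sp g (round vx nu cls (C.n, C.b, T, P, D) (C.La * C.n * C.b) s) fun s' t =>
      MI C T P D J (r + 1) s' ∧ t ≤ 14 * T * (P + 1) * (J.length + 1) ∧
        2 * s'.2.2.2 ≤ s.2.2.2 := by
  have hN := I.N
  have hNJ : s.2.2.2 ≤ J.length := (Nat.le_mul_of_pos_right _ (by positivity)).trans I.hf
  have hth : 0 < s.2.2.2 / (C.La * C.n * C.b) := Nat.div_pos hc hk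
  have h1 : C.La * C.n * C.b * (s.2.2.2 / (C.La * C.n * C.b)) ≤ s.2.2.1.length :=
    hN ▸ Nat.mul_div_le _ _
  have h2 : s.2.2.1.length ≤ 2 * (C.La * C.n * C.b * (s.2.2.2 / (C.La * C.n * C.b))) := by
    have a := Nat.div_add_mod s.2.2.2 (C.La * C.n * C.b)
    have b := Nat.mod_lt s.2.2.2 hk
    have c := Nat.le_mul_of_pos_right (C.La * C.n * C.b) hth
    omega
  have hD' : s.2.2.2 / (C.La * C.n * C.b) ≤ D := Nat.div_le_of_le_mul (hNJ.trans hD)
  have hP0 : 0 < P := by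
    obtain ⟨x, m⟩ := List.exists_mem_of_length_pos (l := s.2.2.1) (by omega)
    have := (hJ x (I.sub x m)).len
    simp only [It.w, List.length_append, List.length_cons] at this
    have : 0 < 2 ^ T * w0 := Nat.mul_pos (by positivity) (by omega)
    omega
  unfold round
  dsimp only
  refine (sp_mapP _ _).bind fun L t1 ⟨a1, b1⟩ => (sp_forN'
    (fun j r => RI C T P D w0 s.1 s.2.2.1 j r) (s.2.2.1.length * (7 * P + 8) + 1)
    (fun j r _ hj k => sp_pass hC e1 e2 e3 hX hXb hXO hth hD' h1 h2 hP hP0 (by omega) k)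
    ?_).bind fun u t2 ⟨k, b2⟩ => ?_
  · subst a1
    refine ⟨by simp, by simp, fun x m => ?_, by simp [Function.comp_def], fun _ m => m,
      fun _ m => Or.inl m, by simp, by simp, fun v => ?_⟩
    · obtain ⟨y, m', rfl⟩ := List.mem_map.1 m
      exact ⟨(hJ y (I.sub y m')).mono (fun _ m => (nomatch m)) (by simp), rfl, by simp [Nat.mod_one]⟩
    · have := I.ld v
      simpa [ld, lo, Function.comp_def] using this
  rw [zero_add] at k
  have hl := k.pm.length_eq
  simp only [List.length_append, List.length_map] at hl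
  have hh : 2 * u.2.2.2.2.length ≤ s.2.2.2 :=
    Nat.le_of_mul_le_mul_left (by have := k.fl; rw [hN]; linarith) hT
  refine (sp_fin hC (H := u.2.2.1) (P := P) s.2.1 (fun x m => ?_)
    (fun q m => (I.out q m).mono k.h0)).bind fun W t3 ⟨c1, c2, c3, b3⟩ =>
    (sp_lenL _).bind fun N t4 ⟨a4, b4⟩ => ⟨⟨fun x m => I.sub x (k.pm.subset (by simp [m])),
      fun v => ?_, ?_, a4, ?_, c1, fun x m => ?_, ?_, fun v => ?_⟩, ?_, a4 ▸ hh⟩
  · obtain ⟨hx, he, hm⟩ := k.al x m
    rw [k.p, Nat.mod_eq_of_lt ((hC.lt _ hx.sa).trans_le hn),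
      Nat.mod_eq_of_lt ((hC.lt _ hx.sb).trans_le hn)] at hm
    exact ⟨hx.mono (fun _ h => h) hP, he, hC.inj _ _ hx.sa hx.sb hm⟩
  · have a := lo_perm C.vx v k.pm
    have := I.ld v
    rw [lo_append] at a
    show lo C.vx v u.2.2.2.2 ≤ D
    omega
  · refine List.Perm.trans ?_ I.pm
    have a := k.pm.map Prod.fst
    rw [List.map_append] at a
    refine (c2.append_right _).trans ?_
    rw [List.append_assoc]
    exact (List.perm_append_comm_assoc _ _ _).trans (a.append_left _)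
  · have c := Nat.mul_le_mul_right (2 ^ r) (a4 ▸ hh)
    have d := I.hf
    show N * 2 ^ (r + 1) ≤ _
    rw [pow_succ]; linarith
  · rcases k.hs x m with m | ⟨y, m, e⟩
    · exact I.hs x m
    · exact ⟨y, I.sub y m, e⟩
  · have a := k.hl
    have b := I.hl
    show u.2.2.1.length ≤ _
    rw [mul_add]; omega
  · have a := k.oc v
    have b := I.lw v
    rw [k.O] at a
    show lw C.vx v W ≤ _
    rw [c3, mul_add]; omega
  · have e1 : s.2.2.1.length ≤ J.length := hN ▸ hNJ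
    have e2 : u.2.2.2.1.length * (P + 3) ≤ J.length * (P + 3) := Nat.mul_le_mul_right _ (by omega)
    have e3 : T * (s.2.2.1.length * (7 * P + 8) + 1 + 1) ≤ T * (J.length * (7 * P + 8) + 2) :=
      Nat.mul_le_mul_left _ (Nat.add_le_add_right (Nat.mul_le_mul_right _ e1) 2)
    have e4 : J.length * P ≤ T * (J.length * P) := Nat.le_mul_of_pos_left _ hT
    have e5 : J.length ≤ T * J.length := Nat.le_mul_of_pos_left _ hT
    have e6 : u.2.2.2.2.length ≤ J.length := by omega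
    nlinarith [Nat.zero_le (T * P), Nat.zero_le (T * (J.length * P))]

/-- **the butterfly**; `q = (n, b, T, P, D)` -/
def bf (vx nu cls : Arr ℕ) (q : PP) (La : ℕ) (J : List It) : R (List ℕ × List (ℕ × List ℕ)) :=
  nat (La * q.1 * q.2.1) >>= fun ka => lenL J >>= fun N =>
  whileF (fun s : MS => decide (ka ≤ s.2.2.2)) (round vx nu cls q ka) (N + 1) ([], [], J, N)
    >>= fun s =>
  foldP (fun (x : It) (r : List ℕ × List (ℕ × List ℕ)) => (x.1 :: r.1, (x.1, [x.1]) :: r.2))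
    s.2.2.1 (s.1, s.2.1)

theorem foldl_left (L : List It) (r : List ℕ × List (ℕ × List ℕ)) :
    L.foldl (fun r x => (x.1 :: r.1, (x.1, [x.1]) :: r.2)) r =
      ((L.map Prod.fst).reverse ++ r.1, (L.map fun x => (x.1, [x.1])).reverse ++ r.2) := by
  induction L generalizing r with
  | nil => simp
  | cons x L ih => simp [ih]

/-- the result of the butterfly -/
structure Res (C : Ctx) (T P D : ℕ) (J : List It) (H : List ℕ) (W : List (ℕ × List ℕ)) : Prop where
  pm : (W.map Prod.fst).Perm (J.map Prod.fst)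
  out : ∀ q ∈ W, C.Out H P q
  hs : ∀ x ∈ H, ∃ y ∈ J, x = y.1
  hl : H.length ≤ C.La * C.n * C.b * (3 * T * J.length.size + 1)
  lw : ∀ v, lw C.vx v W ≤ D * ((1 + 10 * T * P) ^ T * J.length.size + 2)

theorem sp_bf (hC : C.Ok) {vx nu cls : Arr ℕ} (e1 : vx.get = C.vx) (e2 : nu.get = C.nu)
    (e3 : cls.get = C.cls) {T P D w0 : ℕ} {J : List It}
    (hX : C.La * C.n * C.b ≤ g.X) (hXb : C.b ^ T ≤ g.X) (hXO : D * (1 + 10 * T * P) ^ T ≤ g.X)
    (hk : 0 < C.La * C.n * C.b) (hn : C.n ≤ C.b ^ T) (hT : 0 < T) (hP : 2 ^ T * w0 ≤ P)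
    (hJ : ∀ x ∈ J, C.It [] w0 x) (hl : ∀ v, lo C.vx v J ≤ D)
    (hD : J.length ≤ C.La * C.n * C.b * D) :
    Sp g (bf vx nu cls (C.n, C.b, T, P, D) C.La J) fun r t => Res C T P D J r.1 r.2 ∧
      t ≤ (14 * T * (P + 1) * (J.length + 1) + 1) * J.length.size + 2 * J.length + 3 := by
  unfold bf
  dsimp only
  refine sp_bind.2 (sp_nat.2 ⟨hX, (sp_lenL _).bind fun N t1 ⟨a1, b1⟩ => (sp_whileF
    (fun s t => ∃ r ≤ J.length.size, MI C T P D J r s ∧
      t ≤ (14 * T * (P + 1) * (J.length + 1) + 1) * r) (fun s => s.2.2.1.length)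
    (fun s t ⟨r, _, I, ht⟩ hc => ?_) (t := 0) ⟨0, Nat.zero_le _, ?_, Nat.zero_le _⟩
    (by simp [a1])).bind fun s t2 ⟨hc, u, e, r, hr, I, ht⟩ => ?_⟩)
  · have hc := of_decide_eq_true hc
    refine (sp_round hC e1 e2 e3 hX hXb hXO hk hn hT hP hJ hD I hc).mono fun s' u ⟨I', hu, hh⟩ =>
      ⟨⟨r + 1, Nat.lt_size.2 (le_trans (Nat.le_mul_of_pos_left _ (hk.trans_le hc)) I.hf), I',
        by rw [mul_add]; omega⟩, ?_⟩
    have := I.N
    have := I'.N
    show s'.2.2.1.length < s.2.2.1.length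
    omega
  · subst a1
    exact ⟨fun _ m => m, hl, by simp, rfl, by simp, fun _ m => (nomatch m), fun _ m => (nomatch m),
      by simp, by simp [lw]⟩
  have hc : s.2.2.2 < C.La * C.n * C.b := by simpa using hc
  have hN := I.N
  have hNJ : s.2.2.2 ≤ J.length := (Nat.le_mul_of_pos_right _ (by positivity)).trans I.hf
  refine (sp_foldP _ _ _).mono fun z t3 ⟨a3, b3⟩ => ⟨?_, ?_⟩
  · rw [a3, foldl_left]
    refine ⟨?_, fun q m => ?_, fun x m => ?_, ?_, fun v => ?_⟩
    · refine List.Perm.trans ?_ I.pm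
      simp only [List.map_append, List.map_reverse, List.map_map, Function.comp_def]
      exact ((List.reverse_perm _).append_right _).trans List.perm_append_comm
    · rcases List.mem_append.1 m with m | m
      · obtain ⟨x, m', rfl⟩ := List.mem_map.1 (List.mem_reverse.1 m)
        have := (hJ x (I.sub x m')).len
        simp only [It.w, List.length_append, List.length_cons] at this
        have : 0 < 2 ^ T * w0 := Nat.mul_pos (by positivity) (by omega)
        refine ⟨⟨rfl, rfl⟩, by simp only [List.length_singleton]; omega, fun o k => ?_⟩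
        rw [List.mem_singleton.1 k]
        exact Or.inr ⟨rfl, x.1,
          List.mem_append_left _ (List.mem_reverse.2 (List.mem_map_of_mem m')), rfl⟩
      · exact (I.out q m).mono fun x k => List.mem_append_right _ k
    · rcases List.mem_append.1 m with m | m
      · obtain ⟨y, m', rfl⟩ := List.mem_map.1 (List.mem_reverse.1 m)
        exact ⟨y, I.sub y m', rfl⟩
      · exact I.hs x m
    · have a := I.hl
      have b := Nat.mul_le_mul_left (3 * (C.La * C.n * C.b) * T) hr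
      simp only [List.length_append, List.length_reverse, List.length_map]
      linarith
    · have a := I.lw v
      have b := Nat.mul_le_mul_left (D * (1 + 10 * T * P) ^ T) hr
      have c := I.ld v
      have d : ∀ L : List It, lw C.vx v (L.map fun x => (x.1, [x.1])) ≤ 2 * lo C.vx v L := by
        intro L
        induction L with
        | nil => simp [lw]
        | cons x L ih =>
          simp only [lw, lo, List.map_cons, List.sum_cons, It.w, cnt_append, cnt_cons, cnt_nil]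
            at ih ⊢
          omega
      have d' := d s.2.2.1
      simp only [lw, List.map_append, List.map_reverse, List.sum_append, List.sum_reverse] at a d' ⊢
      linarith
  · have b := Nat.mul_le_mul_left (14 * T * (P + 1) * (J.length + 1) + 1) hr
    omega

end Crest.Agent.N325.Bf
end

-- ▼ part N325/Bf/Box
section

/-!
# Row 325: the butterfly is the static box of the batch spanner (helper12)
-/

set_option autoImplicit false

namespace Crest.Agent.N325.Bf

variable {g : Gl}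

/-- the box: classes `cls` (fewer than `La`), base `b`, `T` digits -/
def box (cls : Arr ℕ) (La b T : ℕ) (i : Ds.BI) : R Ds.BO :=
  bf i.1 i.2.1 cls (i.2.2.1, b, T, i.2.2.2.1, i.2.2.2.2.1) La i.2.2.2.2.2

/-- bound on the number of rounds -/
def rounds (k : Ds.Cs) : ℕ := ((k.nV + 1) * k.DD).size

/-- admissible length after `lam` -/
def boxNx (T lam P : ℕ) : Prop := 2 ^ T * (lam + 1) ≤ P

/-- loss in congestion -/
def boxGam (k : Ds.Cs) (T P : ℕ) : ℕ := (1 + 10 * T * P) ^ T * rounds k + 2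

theorem boxSpec {cls : Arr ℕ} {La b T : ℕ} {k : Ds.Cs} (hcl : ∀ o, cls.get (rv o) = cls.get o)
    (hLa : ∀ o, cls.get o < La) (hb : 0 < b) (hT : 0 < T) (hn : k.nV + 1 ≤ b ^ T)
    (hX : La * (k.nV + 1) * b ≤ g.X) (hXb : b ^ T ≤ g.X)
    (hXO : k.DD * (1 + 10 * T * k.LM) ^ T ≤ g.X)
    (hH : La * b * (3 * T * rounds k + 1) ≤ k.cH)
    (hC : (14 * T * (k.LM + 1) + 1) * rounds k + 3 ≤ k.Cb) :
    Ds.BoxSpec g (box cls La b T) cls.get k (boxNx T) (boxGam k T) := by
  intro vx nu n P D lam J S Old h0 h1 h2 h3 h4 h5 h6 h7 h8 h9 h10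
  have hLa0 : 0 < La := (Nat.zero_le _).trans_lt (hLa 0)
  have hr : J.length.size ≤ rounds k :=
    Nat.size_le_size (h10.trans (Nat.mul_le_mul h1 h3))
  let C : Ctx := ⟨vx.get, nu.get, cls.get, S, Old, n, b, La⟩
  have hC' : C.Ok := ⟨h5, h6, h7, hcl, hb⟩
  refine (sp_bf (C := C) hC' rfl rfl rfl (T := T) (P := P) (D := D) (w0 := lam + 1) (J := J)
    (le_trans (Nat.mul_le_mul_right _ (Nat.mul_le_mul_left _ h1)) hX) hXb
    (le_trans (Nat.mul_le_mul h3 (Nat.pow_le_pow_left (by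
      have := Nat.mul_le_mul_left (10 * T) h2; omega) _)) hXO)
    (Nat.mul_pos (Nat.mul_pos hLa0 h0) hb) (h1.trans hn) hT h4 (fun x hx => ?_) h9 ?_).mono
    fun r t ⟨R, ht⟩ => ⟨⟨R.pm, R.out, fun y hy => ?_, R.hl.trans ?_, fun v => (R.lw v).trans ?_⟩,
      ht.trans ?_⟩
  · obtain ⟨a1, a2, a3, a4, a5, a6⟩ := h8 x hx
    refine ⟨a3, a4, a1, a2, fun o ho => Or.inl (a6 o (List.mem_append.2 ho)), hLa _, ?_⟩
    simp only [It.w, List.length_append, List.length_cons]; omega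
  · refine h10.trans ?_
    show n * D ≤ La * n * b * D
    exact Nat.mul_le_mul_right _ ((Nat.le_mul_of_pos_left _ hLa0).trans
      (Nat.le_mul_of_pos_right _ hb))
  · obtain ⟨z, hz, rfl⟩ := R.hs y hy
    exact List.mem_map_of_mem hz
  · show La * n * b * (3 * T * J.length.size + 1) ≤ k.cH * n
    have := Nat.mul_le_mul_left (3 * T) hr
    calc _ = La * b * (3 * T * J.length.size + 1) * n := by ring
      _ ≤ _ := Nat.mul_le_mul_right _ (le_trans (Nat.mul_le_mul_left _ (by omega)) hH)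
  · exact Nat.mul_le_mul_left _ (Nat.add_le_add_right (Nat.mul_le_mul_left _ hr) 2)
  · have e1 : (14 * T * (P + 1) * (J.length + 1) + 1) * J.length.size
        ≤ (14 * T * (k.LM + 1) + 1) * (J.length + 1) * rounds k := by
      refine Nat.mul_le_mul ?_ hr
      have := Nat.mul_le_mul_right (J.length + 1)
        (Nat.mul_le_mul_left (14 * T) (Nat.add_le_add_right h2 1))
      rw [add_mul (14 * T * (k.LM + 1))]; omega
    have e2 := Nat.mul_le_mul_right (J.length + 1) hC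
    rw [add_mul, mul_right_comm] at e2
    omega

variable {α : Type} [Rp α]

@[fun_prop] theorem impl_pass {vx nu cls : α → Arr ℕ} {q : α → PP} {s : α → RS}
    (hv : Pu true vx) (h1 : Pu true nu) (h2 : Pu true cls) (h3 : Pu true q) (hs : Pu true s) :
    Impl fun a => pass (vx a) (nu a) (cls a) (q a) (s a) := by
  unfold pass; impl

@[fun_prop] theorem impl_round {vx nu cls : α → Arr ℕ} {q : α → PP} {ka : α → ℕ} {s : α → MS}
    (hv : Pu true vx) (h1 : Pu true nu) (h2 : Pu true cls) (h3 : Pu true q) (h4 : Pu true ka)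
    (hs : Pu true s) : Impl fun a => round (vx a) (nu a) (cls a) (q a) (ka a) (s a) := by
  unfold round; impl

@[fun_prop] theorem impl_bf {vx nu cls : α → Arr ℕ} {q : α → PP} {La : α → ℕ} {J : α → List It}
    (hv : Pu true vx) (h1 : Pu true nu) (h2 : Pu true cls) (h3 : Pu true q) (h4 : Pu true La)
    (hs : Pu true J) : Impl fun a => bf (vx a) (nu a) (cls a) (q a) (La a) (J a) := by
  unfold bf; impl

@[fun_prop] theorem impl_box {cls : α → Arr ℕ} {La b T : α → ℕ} {i : α → Ds.BI}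
    (h1 : Pu true cls) (h2 : Pu true La) (h3 : Pu true b) (h4 : Pu true T) (h5 : Pu true i) :
    Impl fun a => box (cls a) (La a) (b a) (T a) (i a) := by
  unfold box; impl

end Crest.Agent.N325.Bf
end

-- ▼ part N325/Sg/Chain
section

/-!
# N325 / Sg (helper34): the parameters of the batch spanner in closed form
-/

set_option autoImplicit false

namespace Crest.Agent.N325.Sg

open Bf Filter

/-- bound on the walks of the level `i` -/
def lmF (T i : ℕ) : ℕ := (2 ^ (T + 1)) ^ (i + 1)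
/-- loss in congestion per level (`r0` bounds the rounds of the box) -/
def gamF (T L r0 : ℕ) : ℕ := (1 + 10 * T * lmF T L) ^ T * r0 + 2
/-- bound on the index of the level `i` -/
def ddF (γ D0 i : ℕ) : ℕ := D0 * (γ + 1) ^ (i + 1)
/-- the bounds of the levels above the first one -/
def prF (T L γ D0 : ℕ) : List (ℕ × ℕ) :=
  (List.range L).map fun i => (lmF T (i + 1), ddF γ D0 (i + 1))
/-- the constants of the spanner -/
def csF (b nV T L r0 D0 La bb : ℕ) : Ds.Cs :=
  ⟨b, nV, lmF T L, ddF (gamF T L r0) D0 L, La * bb * (3 * T * r0 + 1),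
    (14 * T * (lmF T L + 1) + 1) * r0 + 3⟩

theorem lmF_pos (T i : ℕ) : 1 ≤ lmF T i := Nat.one_le_pow _ _ (by positivity)
theorem lmF_succ (T i : ℕ) : lmF T (i + 1) = lmF T i * 2 ^ (T + 1) := pow_succ _ _
theorem lmF_mono (T : ℕ) {i j : ℕ} (h : i ≤ j) : lmF T i ≤ lmF T j :=
  Nat.pow_le_pow_right (by positivity) (by omega)
theorem ddF_succ (γ D0 i : ℕ) : ddF γ D0 (i + 1) = ddF γ D0 i * (γ + 1) := by
  unfold ddF; ring
theorem ddF_mono (γ D0 : ℕ) {i j : ℕ} (h : i ≤ j) : ddF γ D0 i ≤ ddF γ D0 j :=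
  Nat.mul_le_mul_left _ (Nat.pow_le_pow_right (by omega) (by omega))
theorem le_ddF (γ D0 i : ℕ) : D0 ≤ ddF γ D0 i := Nat.le_mul_of_pos_right _ (by positivity)
theorem length_prF (T L γ D0 : ℕ) : (prF T L γ D0).length = L := by simp [prF]

section spec

variable {b nV T L r0 D0 La bb : ℕ}

theorem rounds_csF (h : (nV + 1) * ddF (gamF T L r0) D0 L < 2 ^ r0) :
    rounds (csF b nV T L r0 D0 La bb) ≤ r0 := Nat.size_le.2 h

theorem gam_csF (h : (nV + 1) * ddF (gamF T L r0) D0 L < 2 ^ r0) {i : ℕ} (hi : i ≤ L) :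
    boxGam (csF b nV T L r0 D0 La bb) T (lmF T i) ≤ gamF T L r0 :=
  Nat.add_le_add_right (Nat.mul_le_mul (Nat.pow_le_pow_left (Nat.add_le_add_left
    (Nat.mul_le_mul_left _ (lmF_mono T hi)) _) _) (rounds_csF h)) _

theorem nx_lmF0 (T : ℕ) : boxNx T 0 (lmF T 0) := by
  unfold boxNx lmF
  rw [zero_add, mul_one, pow_one]
  exact Nat.pow_le_pow_right two_pos (by omega)

theorem nx_lmF (T i : ℕ) : boxNx T (lmF T i) (lmF T (i + 1)) := by
  have := lmF_pos T i
  unfold boxNx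
  rw [lmF_succ, pow_succ, mul_comm (lmF T i), mul_assoc]
  exact Nat.mul_le_mul_left _ (by omega)

/-- `hD1` of `Ds.sp_build` -/
theorem d1_csF (h : (nV + 1) * ddF (gamF T L r0) D0 L < 2 ^ r0) :
    D0 + D0 * boxGam (csF b nV T L r0 D0 La bb) T (lmF T 0) ≤ ddF (gamF T L r0) D0 0 := by
  have := Nat.mul_le_mul_left D0 (gam_csF (b := b) (La := La) (bb := bb) h (Nat.zero_le L))
  unfold ddF
  rw [zero_add, pow_one, mul_add]; omega

theorem cons_prF (T L γ D0 : ℕ) : (lmF T 0, ddF γ D0 0) :: prF T L γ D0 =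
    (List.range (L + 1)).map fun i => (lmF T i, ddF γ D0 i) := by
  rw [List.range_succ_eq_map, List.map_cons, List.map_map]; rfl

/-- `hpr` of `Ds.sp_build` -/
theorem chain_csF (h : (nV + 1) * ddF (gamF T L r0) D0 L < 2 ^ r0) :
    ((lmF T 0, ddF (gamF T L r0) D0 0) :: prF T L (gamF T L r0) D0).IsChain fun y x =>
      boxNx T y.1 x.1 ∧ y.1 ≤ x.1 ∧
        y.2 + y.2 * boxGam (csF b nV T L r0 D0 La bb) T x.1 ≤ x.2 := by
  rw [cons_prF, List.isChain_map, List.isChain_range_succ]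
  intro i hi
  refine ⟨nx_lmF T i, lmF_mono T (Nat.le_succ i), ?_⟩
  have := Nat.mul_le_mul_left (ddF (gamF T L r0) D0 i)
    (gam_csF (b := b) (La := La) (bb := bb) h (Nat.succ_le_of_lt hi))
  rw [ddF_succ, mul_add]
  dsimp only at this ⊢
  omega

/-- `hpr'` of `Ds.sp_build` -/
theorem le_csF : ∀ p ∈ (lmF T 0, ddF (gamF T L r0) D0 0) :: prF T L (gamF T L r0) D0,
    p.1 ≤ (csF b nV T L r0 D0 La bb).LM ∧ p.2 ≤ (csF b nV T L r0 D0 La bb).DD := by
  rw [cons_prF]
  intro p hp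
  obtain ⟨i, hi, rfl⟩ := List.mem_map.1 hp
  have := List.mem_range.1 hi
  exact ⟨lmF_mono T (by omega), ddF_mono _ _ (by omega)⟩

/-- **the box with these constants** -/
theorem box_csF {g : Gl} {cls : Arr ℕ} (hcl : ∀ o, cls.get (rv o) = cls.get o)
    (hLa : ∀ o, cls.get o < La) (hb : 0 < bb) (hT : 0 < T) (hn : nV + 1 ≤ bb ^ T)
    (h : (nV + 1) * ddF (gamF T L r0) D0 L < 2 ^ r0) (hX : La * (nV + 1) * bb ≤ g.X)
    (hXb : bb ^ T ≤ g.X) (hXO : ddF (gamF T L r0) D0 (L + 1) ≤ g.X) :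
    Ds.BoxSpec g (box cls La bb T) cls.get (csF b nV T L r0 D0 La bb) (boxNx T)
      (boxGam (csF b nV T L r0 D0 La bb) T) := by
  have hr := rounds_csF (b := b) (La := La) (bb := bb) h
  refine boxSpec hcl hLa hb hT hn hX hXb (le_trans ?_ hXO) (Nat.mul_le_mul_left _
    (Nat.add_le_add_right (Nat.mul_le_mul_left _ hr) _))
    (Nat.add_le_add_right (Nat.mul_le_mul_left _ hr) _)
  rcases Nat.eq_zero_or_pos r0 with rfl | h0
  · have : (nV + 1) * ddF (gamF T L 0) D0 L = 0 := by simpa using h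
    have e : ddF (gamF T L 0) D0 L = 0 := by simpa using this
    change ddF (gamF T L 0) D0 L * _ ≤ _
    rw [e, zero_mul]; exact Nat.zero_le _
  · rw [ddF_succ]
    refine Nat.mul_le_mul_left _ ?_
    have := Nat.le_mul_of_pos_right ((1 + 10 * T * lmF T L) ^ T) h0
    change (1 + 10 * T * lmF T L) ^ T ≤ (1 + 10 * T * lmF T L) ^ T * r0 + 2 + 1
    omega

end spec

/-! ### programs -/

variable {g : Gl}

/-- program for `lmF` -/
def lmR (T i : ℕ) : R ℕ := powR 2 (T + 1) >>= fun a => powR a (i + 1)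

theorem sp_lmR {T i : ℕ} (h : lmF T i ≤ g.X) :
    Sp g (lmR T i) fun r t => r = lmF T i ∧ t ≤ T + i + 4 := by
  have h0 : 2 ^ (T + 1) ≤ lmF T i := Nat.le_self_pow (by omega) _
  refine (sp_powR (by omega) (h0.trans h)).bind fun a t k => ?_
  rw [k.1]
  exact (sp_powR (Nat.one_le_pow _ _ two_pos) h).mono fun r u k' => ⟨k'.1, by omega⟩

/-- program for `gamF` -/
def gamR (T L r0 : ℕ) : R ℕ :=
  lmR T L >>= fun m => nat (1 + 10 * T * m) >>= fun a => powR a T >>= fun c => nat (c * r0 + 2)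

theorem sp_gamR {T L r0 : ℕ} (hT : 0 < T) (h0 : 0 < r0) (h : gamF T L r0 ≤ g.X) :
    Sp g (gamR T L r0) fun r t => r = gamF T L r0 ∧ t ≤ 2 * T + L + 5 := by
  have a1 := Nat.le_mul_of_pos_right ((1 + 10 * T * lmF T L) ^ T) h0
  have a2 := Nat.le_self_pow hT.ne' (1 + 10 * T * lmF T L)
  have a3 : 1 * lmF T L ≤ 10 * T * lmF T L := Nat.mul_le_mul_right _ (by omega)
  unfold gamF at h
  refine (sp_lmR (by omega)).bind fun m t k => ?_
  rw [k.1, sp_bind, sp_nat]
  refine ⟨by omega, (sp_powR (by omega) (by omega)).bind fun c u k' => ?_⟩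
  rw [k'.1]
  exact sp_nat.2 ⟨h, rfl, by omega⟩

/-- the bounds of all levels -/
def prR (T L γ D0 : ℕ) : R (ℕ × ℕ × List (ℕ × ℕ)) :=
  powR 2 (T + 1) >>= fun a => nat (D0 * (γ + 1)) >>= fun d =>
    forN (fun _ (s : ℕ × ℕ × List (ℕ × ℕ)) => nat (s.1 * a) >>= fun x =>
      nat (s.2.1 * (γ + 1)) >>= fun y => pure (x, y, (x, y) :: s.2.2)) L 0 (a, d, []) >>= fun s =>
      revL s.2.2 >>= fun l => pure (a, d, l)

theorem sp_prR {T L γ D0 : ℕ} (h1 : lmF T L ≤ g.X) (h2 : ddF γ D0 L ≤ g.X) :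
    Sp g (prR T L γ D0) fun r t =>
      r = (lmF T 0, ddF γ D0 0, prF T L γ D0) ∧ t ≤ T + 2 * L + 4 := by
  have h0 : 2 ^ (T + 1) ≤ lmF T L := Nat.le_self_pow (by omega) _
  have e1 : lmF T 0 = 2 ^ (T + 1) := pow_one _
  have e2 : ddF γ D0 0 = D0 * (γ + 1) := by unfold ddF; rw [zero_add, pow_one]
  refine (sp_powR (by omega) (h0.trans h1)).bind fun a t k => ?_
  rw [k.1, sp_bind, sp_nat]
  refine ⟨e2 ▸ (ddF_mono γ D0 (Nat.zero_le L)).trans h2, ?_⟩
  refine (sp_forN' (fun j s => s = (lmF T j, ddF γ D0 j, (prF T j γ D0).reverse)) 0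
    (fun j s _ hj hs => ?_) (by rw [e1, e2]; rfl)).bind fun s u k' => ?_
  · subst hs
    simp only [sp_bind, sp_nat, sp_pure, ← lmF_succ, ← ddF_succ]
    refine ⟨(lmF_mono T (by omega)).trans h1, (ddF_mono γ D0 (by omega)).trans h2, ?_, le_rfl⟩
    simp [prF, List.range_succ]
  · rw [k'.1, zero_add]
    refine (sp_revL _).bind fun l v k'' => ?_
    rw [sp_pure, k''.1, List.reverse_reverse, e1, e2]
    refine ⟨rfl, ?_⟩
    have := k''.2
    rw [List.length_reverse, length_prF] at this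
    omega

variable {α : Type} [Rp α]

@[fun_prop] theorem impl_lmR {T i : α → ℕ} (h1 : Pu true T) (h2 : Pu true i) :
    Impl fun a => lmR (T a) (i a) := by
  unfold lmR; impl

@[fun_prop] theorem impl_gamR {T L r : α → ℕ} (h1 : Pu true T) (h2 : Pu true L) (h3 : Pu true r) :
    Impl fun a => gamR (T a) (L a) (r a) := by
  unfold gamR; impl

@[fun_prop] theorem impl_prR {T L γ D : α → ℕ} (h1 : Pu true T) (h2 : Pu true L) (h3 : Pu true γ)
    (h4 : Pu true D) : Impl fun a => prR (T a) (L a) (γ a) (D a) := by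
  unfold prR; impl

/-! ### growth -/

section growth

variable {T L r0 D0 i γ : ℕ → ℕ}

theorem qp_lmF (hT : Ty T) (hi : Ty i) : QP fun N => lmF (T N) (i N) :=
  (QP.two_pow (hT.add (Ty.const 1))).pow (hi.add (Ty.const 1))

theorem qp_gamF (hT : Ty T) (hL : Ty L) (hr : QP r0) : QP fun N => gamF (T N) (L N) (r0 N) :=
  ((((QP.const 1).add (((QP.const 10).mul hT.qp).mul (qp_lmF hT hL))).pow hT).mul hr).add
    (QP.const 2)

/-- the index grows by a quasi-polylogarithmic factor -/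
theorem qp_ddF (hγ : QP γ) (hi : Ty i) : QP fun N => (γ N + 1) ^ (i N + 1) :=
  (hγ.add (QP.const 1)).pow (hi.add (Ty.const 1))

theorem subQ_ddF (hγ : QP γ) (hi : Ty i) (hD : SubQ D0) : SubQ fun N => ddF (γ N) (D0 N) (i N) :=
  hD.mul (qp_ddF hγ hi).subL.subQ

end growth

end Crest.Agent.N325.Sg
end

-- ▼ part N325/Sg/Pk

/-!
# N325 / Sg (helper51): all parameters of the oracle as functions of `c` and `N`
-/

set_option autoImplicit false

namespace Crest.Agent.N325.Sg.Pk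

open Tw Lt Filter

/-- touches of one update -/
def fM (P : Pm) : ℕ := 4 * (P.D + 3) * (P.D + 1) * P.S + 2 * P.S ^ 2
/-- recourse of one update -/
def fRU (P : Pm) (k : Ds.Cs) (L : ℕ) : ℕ := 40 * k.RU L (fM P) + 4 * fM P + 40
/-- time of one update -/
def fTU (P : Pm) (K : ℕ) (k : Ds.Cs) (L : ℕ) : ℕ :=
  k.TU L (fM P) + 1000 * (K + 1) * (P.S + 1) * (fRU P k L + 1)
/-- time of the lift per edge -/
def fTL (P : Pm) (B : ℕ) : ℕ := 1000 * (P.D + 3) ^ 2 * (P.s + 1) ^ 2 * (B + 1) * (P.S + 1) ^ 2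
/-- time of a build per edge -/
def fTb (P : Pm) (K : ℕ) (k : Ds.Cs) (L B : ℕ) : ℕ :=
  2 * fTL P B + L +
    2000 * (P.D + 3) ^ 2 * (P.S + 1) ^ 2 * (K + 1) * (k.Cb + k.LM + k.cH + P.S + 20)

section defs
variable (c N : ℕ)

/-- number of bits -/
def lg : ℕ := (c + 5) * (Nat.log 2 N + 2)
/-- depth of the inner hierarchies -/
def T : ℕ := lev N ^ 2
/-- the small root -/
def bb : ℕ := 2 ^ (lg c N / T N + 1)
/-- the parameters of the forest -/
def P : Pm := ⟨lg c N, T N, lg c N ^ T N, 8 * lg c N + bb c N, 8 * lg c N⟩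
/-- number of classes, bits of the heights -/
def La : ℕ := (2 ^ lg c N + 2 * (P c N).Hb).size + 1
def r0 : ℕ := 2 * lg c N + 1
def cH : ℕ := La c N * bb c N * (3 * T N * r0 c N + 1)
def k0 : ℕ := 640 * cH c N * (T N + 3) * (T N + 1) * (P c N).S
/-- number of ids at the top -/
def mm : ℕ := 128 * (N + 1)
/-- the large root -/
def r : ℕ := rt (lev N) (mm N)
def K0 : ℕ := k0 c N * r N
def K : ℕ := 1 + (lg c N + 2) * K0 c N
def D0 : ℕ := K c N * (P c N).S
def γ : ℕ := gamF (T N) (T N) (r0 c N)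
/-- the constants of the spanner -/
def cs : Ds.Cs := csF (bb c N) (2 ^ lg c N - 1) (T N) (T N) (r0 c N) (D0 c N) (La c N) (bb c N)
def LM : ℕ := lmF (T N) (T N)
/-- loss in flatness -/
def A : ℕ := (P c N).al * (4 * LM N + 2)
/-- bound on the lengths on all levels -/
def LB : ℕ := (N + 2) ^ (c + 2)
def RU : ℕ := fRU (P c N) (cs c N) (T N)
def qn : ℕ := 18 * (T N + 2) * (P c N).S ^ 2
def q2 : ℕ := 2 * (1 + (lg c N + 2) * k0 c N)
/-- the parameters of the tower -/
def tp : TP :=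
  ⟨lev N, r N, RU c N, K c N, 2 * (T N + 1) * (P c N).S + 2 * (P c N).S ^ 2, 1, A c N,
    fTU (P c N) (K c N) (cs c N) (T N), fTb (P c N) (K c N) (cs c N) (T N) (La c N), qn c N,
    2 * K c N, (N + 2) ^ c, (N + 2) ^ c, (N + 2) ^ c, K c N + 2, 1⟩
/-- parameters of the lift and of the box -/
abbrev Ap : Type := Pm × ℕ × ℕ × ℕ
/-- the stored parameters of a stage -/
def prm (th1 : ℕ) : Pr Ap :=
  ⟨(P c N, La c N, LB c N, bb c N), P c N, K0 c N, K c N + 1, (P c N).S ^ 2, th1, bb c N,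
    lmF (T N) 0, D0 c N, ddF (γ c N) (D0 c N) 0, prF (T N) (T N) (γ c N) (D0 c N)⟩
/-- those of the stage `i` -/
def ps (i : ℕ) : Pr Ap := prm c N ((2 * LM N + 1) * A c N ^ i)
/-- a bound on all numbers -/
def XB : ℕ := 2 ^ lg c N * ((La c N + 4) * bb c N + bb c N ^ T N +
  (LM N + 1) * (2 * (P c N).Hb + 2) * 2 ^ lg c N + (2 * LM N + 1) * A c N ^ lev N * A c N +
  (T N + 1) * (P c N).S * 2 ^ lg c N)

end defs

/-! ### growth -/

section growth
variable (c : ℕ)

theorem qp_lg : QP (lg c) := by unfold lg; fun_prop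
theorem ty_T : Ty T := by unfold T; fun_prop
theorem qp_S : QP fun N => (P c N).S := (qp_lg c).pow ty_T

theorem le_two_pow_lg (N : ℕ) : (N + 2) ^ (c + 5) ≤ 2 ^ lg c N := by
  rw [lg, mul_comm, pow_mul]
  refine Nat.pow_le_pow_left ?_ _
  have := Nat.lt_pow_succ_log_self one_lt_two N
  have h2 : 0 < 2 ^ Nat.log 2 N := by positivity
  rw [pow_succ] at this
  rw [pow_add]; omega

theorem pb_M : PolyB fun N => 2 ^ lg c N := by
  refine PolyB.mono (H := fun N => (8 * N + 8) ^ (c + 5)) (by fun_prop) fun N => ?_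
  rw [lg, mul_comm, pow_mul]
  refine Nat.pow_le_pow_left ?_ _
  have := two_pow_log_succ_le N
  rw [pow_succ] at this
  rw [pow_add]; omega

theorem sl_bb : SubL (bb c) :=
  (SubL.rt_of (pb_M c)).mono fun N => by rw [rt, Nat.log_pow one_lt_two]; rfl

theorem T_pos (N : ℕ) : 0 < T N := Nat.one_le_pow _ _ (lev_pos N)

theorem bb_pow_le (N : ℕ) : bb c N ^ T N ≤ 2 ^ T N * 2 ^ lg c N := by
  rw [bb, ← pow_mul, ← pow_add, add_mul, one_mul, add_comm]
  exact Nat.pow_le_pow_right two_pos (Nat.add_le_add_left (Nat.div_mul_le_self _ _) _)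

theorem le_bb_pow (N : ℕ) : 2 ^ lg c N ≤ bb c N ^ T N := by
  rw [bb, ← pow_mul, mul_comm]
  exact Nat.pow_le_pow_right two_pos (Nat.lt_mul_div_succ _ (T_pos N)).le

theorem two_le_bb (N : ℕ) : 2 ≤ bb c N := Nat.le_self_pow (Nat.succ_ne_zero _) 2

theorem pb_bbT : PolyB fun N => bb c N ^ T N :=
  ((QP.two_pow ty_T).subL.subQ.polyB.mul (pb_M c)).mono (bb_pow_le c)

theorem pb_Hb : PolyB fun N => (P c N).Hb := by
  have h1 := pb_bbT c
  have h2 := ((((QP.const 8).mul (qp_lg c)).add (QP.const 1)).pow ty_T).subL.subQ.polyB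
  have h3 := (qp_lg c).subL.subQ.polyB
  have h4 := ty_T.qp.subL.subQ.polyB
  refine PolyB.mono (H := fun N => (T N + 1) *
    (8 * lg c N * ((8 * lg c N + 1) ^ T N * bb c N ^ T N) + 1)) (by fun_prop) fun N => ?_
  refine Nat.mul_le_mul_left _ (Nat.add_le_add_right (Nat.mul_le_mul_left _ ?_) _)
  rw [← mul_pow]
  refine Nat.pow_le_pow_left ?_ _
  have := Nat.mul_le_mul_left (8 * lg c N) (one_le_two.trans (two_le_bb c N))
  change 8 * lg c N + bb c N ≤ _
  rw [add_mul]; omega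

theorem qp_La : QP (La c) :=
  (QP.size_of ((pb_M c).add ((PolyB.const 2).mul (pb_Hb c)))).add (QP.const 1)

theorem qp_r0 : QP (r0 c) := by have := qp_lg c; unfold r0; fun_prop
theorem qp_γ : QP (γ c) := qp_gamF ty_T ty_T (qp_r0 c)
theorem qp_LM : QP LM := qp_lmF ty_T ty_T

theorem sl_cH : SubL (cH c) := by
  have := (qp_La c).subL; have := sl_bb c; have := ty_T.qp.subL; have := (qp_r0 c).subL
  unfold cH; fun_prop

theorem sl_k0 : SubL (k0 c) := by
  have := sl_cH c; have := ty_T.qp.subL; have := (qp_S c).subL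
  unfold k0; fun_prop

theorem sl_q2 : SubL (q2 c) := by
  have := sl_k0 c; have := (qp_lg c).subL
  unfold q2; fun_prop

theorem sl_qn : SubL (qn c) := by
  have := ty_T.qp.subL; have := (qp_S c).subL
  unfold qn; fun_prop

theorem sq_r : SubQ r := SubQ.rt_of (G := mm) (by unfold mm; fun_prop)

theorem sq_K : SubQ (K c) := by
  have := sq_r; have := (sl_k0 c).subQ; have := (qp_lg c).subL.subQ
  unfold K K0; fun_prop

theorem sq_D0 : SubQ (D0 c) := (sq_K c).mul (qp_S c).subL.subQ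

theorem sl_A : SubL (A c) := by
  have := ty_T.qp.subL; have := (qp_lg c).subL; have := sl_bb c; have := qp_LM.subL
  unfold A Pm.al P; fun_prop

theorem sl_fM : SubL fun N => fM (P c N) := by
  have : SubL fun N => (P c N).D := ty_T.qp.subL
  have := (qp_S c).subL
  unfold fM; fun_prop

theorem sl_RU : SubL (RU c) := by
  have := sl_fM c; have := ty_T.qp.subL
  have : SubL fun N => (cs c N).cH := sl_cH c
  have : SubL fun N => (cs c N).b := sl_bb c
  unfold RU fRU Ds.Cs.RU; fun_prop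

theorem sq_T : (SubQ fun N => (tp c N).TU) ∧ SubQ fun N => (tp c N).Tb := by
  have h1 : SubQ fun N => (P c N).D := ty_T.qp.subL.subQ
  have h2 := (qp_S c).subL.subQ
  have h3 : SubQ fun N => (P c N).s := (qp_lg c).subL.subQ
  have h4 : SubQ fun N => (cs c N).cH := (sl_cH c).subQ
  have h5 : SubQ fun N => (cs c N).b := (sl_bb c).subQ
  have h6 : SubQ fun N => (cs c N).LM := qp_LM.subL.subQ
  have h7 : SubQ fun N => (cs c N).DD := subQ_ddF (qp_γ c) ty_T (sq_D0 c)
  have h8 := ty_T.qp.subL.subQ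
  have h9 : SubQ fun N => (cs c N).Cb := by
    have := (qp_r0 c).subL.subQ
    have : SubQ fun N => lmF (T N) (T N) := h6
    unfold cs csF; fun_prop
  have h10 := sq_K c
  have h11 := (sl_fM c).subQ
  have h12 : SubQ fun N => fRU (P c N) (cs c N) (T N) := (sl_RU c).subQ
  have h13 := (qp_La c).subL.subQ
  constructor
  · simp only [tp, fTU, Ds.Cs.TU, Ds.Cs.Cr]; fun_prop
  · simp only [tp, fTb, fTL]; fun_prop

theorem sl_ρ : SubL fun N => (tp c N).ρ := by
  have := ty_T.qp.subL; have := (qp_S c).subL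
  simp only [tp]; fun_prop

theorem pb_XB : PolyB (XB c) := by
  have := pb_M c; have := (qp_La c).subL.subQ.polyB; have := (sl_bb c).subQ.polyB
  have := pb_bbT c; have := qp_LM.subL.subQ.polyB; have := pb_Hb c
  have := (sl_A c).pow_lev.polyB; have := (sl_A c).subQ.polyB
  have := ty_T.qp.subL.subQ.polyB; have := (qp_S c).subL.subQ.polyB
  unfold XB; fun_prop

/-- the facts that hold for large `N` -/
structure Ev (N : ℕ) : Prop where
  cm : 516 * (tp c N).cm ≤ N
  qn : qn c N ^ lev N ≤ N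
  ql : 258 * (K c N + (tp c N).Kb) * (2 * q2 c N) ^ lev N ≤ N
  dd : ddF (γ c N) (D0 c N) (T N + 1) ≤ N
  K : K c N + 1 ≤ N
  γ : γ c N + LM N + k0 c N ≤ N

theorem ev : ∀ᶠ N in atTop, Ev c N := by
  have h1 : SubQ fun N => (tp c N).cm := TP.subQ_cm (fun _ => rfl) (sl_RU c)
  have h2 := ((SubL.const 2).mul (sl_q2 c)).pow_lev
  have h3 := sq_K c
  have h4 : SubQ fun N => (tp c N).Kb := by
    have := (sl_RU c).subQ
    simp only [TP.Kb, TP.m, tp, pow_zero]; fun_prop
  have h5 := (qp_γ c).subL.subQ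
  have h6 := qp_LM.subL.subQ
  have h7 := (sl_k0 c).subQ
  filter_upwards [((SubQ.const 516).mul h1).le_self, (sl_qn c).pow_lev.le_self,
    (((SubQ.const 258).mul (h3.add h4)).mul h2).le_self,
    (subQ_ddF (qp_γ c) (ty_T.add (Ty.const 1)) (sq_D0 c)).le_self,
    (h3.add (SubQ.const 1)).le_self, ((h5.add h6).add h7).le_self] with N a1 a2 a3 a4 a5 a6
  exact ⟨a1, a2, a3, a4, a5, a6⟩

end growth

end Crest.Agent.N325.Sg.Pk
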