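import Crest.Agent.N325.Sg.Emit
import Crest.Agent.N325.Tw.BotImpl
import Crest.Agent.N325.Lst.ListImpl
import Crest.Agent.N325.Pc.Defs
import Crest.Agent.N325.Lt.Rp
import Crest.Agent.N325.Ds.Defs
import Crest.Agent.N325.Bf.Impl0
import Crest.Agent.N325.Sg.Defs
import Crest.Agent.N325.Tw.Impl
import Crest.Agent.N325.Sg.Pk
import Crest.Agent.N325.Lt.Lift

-- ▼ part N325/Sg/EmitImpl
section

/-! The emitter is implementable (helper30). -/

set_option autoImplicit false

namespace Crest.Agent.N325.Sg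

open Tw

@[fun_prop] theorem impl_emit {α : Type} [Rp α] {live : α → Arr Bool}
    {new : α → ℕ → R (Option (Ed × Wk))} {dirty : α → List ℕ} (hl : Pu true live)
    (hn : Impl fun p : α × ℕ => new p.1 p.2) (hd : Pu true dirty) :
    Impl fun a => emit (live a) (new a) (dirty a) := by impl

end Crest.Agent.N325.Sg
end

-- ▼ part N325/Pc/Impl
section

/-!
# Row 325 (helper75): the programs of the pieces are implementable
-/

set_option autoImplicit false

namespace Crest.Agent.N325.Pc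

instance : Rp St := Rp.via fun s => (s.cut, s.pth, s.up, s.cov, s.rt, s.bp, s.mem)

variable {α : Type} [Rp α] {F : α → Fo} {n x y : α → ℕ} {l : α → List ℕ} {so : α → So}

section fields
variable {σ : Bool} {s : α → St}
@[fun_prop] theorem St.pu_cut (h : Pu σ s) : Pu σ fun a => (s a).cut := by impl
@[fun_prop] theorem St.pu_pth (h : Pu σ s) : Pu σ fun a => (s a).pth := by impl
@[fun_prop] theorem St.pu_up (h : Pu σ s) : Pu σ fun a => (s a).up := by impl
@[fun_prop] theorem St.pu_cov (h : Pu σ s) : Pu σ fun a => (s a).cov := by impl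
@[fun_prop] theorem St.pu_rt (h : Pu σ s) : Pu σ fun a => (s a).rt := by impl
@[fun_prop] theorem St.pu_bp (h : Pu σ s) : Pu σ fun a => (s a).bp := by impl
@[fun_prop] theorem St.pu_mem (h : Pu σ s) : Pu σ fun a => (s a).mem := by impl
end fields

@[fun_prop] theorem impl_segR {s : α → St} (hF : Pu true F) (hs : Pu true s) (hx : Pu true x) :
    Impl fun a => segR (F a) (s a) (x a) := by
  impl

@[fun_prop] theorem impl_spn {p : α → ℕ → Bool} (hp : Pu false fun q : α × ℕ => p q.1 q.2)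
    (hl : Pu true l) : Impl fun a => spn (p a) (l a) := by
  impl

@[fun_prop] theorem impl_setE (hx : Pu true x) (hl : Pu true l) (hy : Pu true y)
    (hs : Pu true so) : Impl fun a => setE (x a) (l a) (y a) (so a) := by
  impl

@[fun_prop] theorem impl_mkV (hx : Pu true x) (hs : Pu true so) :
    Impl fun a => mkV (x a) (so a) := by
  impl

@[fun_prop] theorem impl_climb {s : α → St} (hF : Pu true F) (hn : Pu true n) (hx : Pu true x)
    (hs : Pu true s) : Impl fun a => climb (F a) (n a) (x a) (s a) := by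
  impl

@[fun_prop] theorem impl_soft (hF : Pu true F) (hn : Pu true n) (hx : Pu true x)
    (hs : Pu true so) : Impl fun a => soft (F a) (n a) (x a) (so a) := by
  impl

@[fun_prop] theorem impl_reRt {cut : α → Arr Bool} {rt : α → Arr ℕ} (hF : Pu true F)
    (hc : Pu true cut) (hl : Pu true l) (hr : Pu true rt) :
    Impl fun a => reRt (F a) (cut a) (l a) (rt a) := by
  impl

@[fun_prop] theorem impl_fixE (hx : Pu true x) (hs : Pu true so) :
    Impl fun a => fixE (x a) (so a) := by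
  impl

@[fun_prop] theorem impl_hardX (hF : Pu true F) (hl : Pu true l) (hs : Pu true so) :
    Impl fun a => hardX (F a) (l a) (so a) := by
  impl

@[fun_prop] theorem impl_hard (hF : Pu true F) (hl : Pu true l) (hs : Pu true so) :
    Impl fun a => hard (F a) (l a) (so a) := by
  impl

@[fun_prop] theorem impl_build {wt : α → Arr ℕ} (hF : Pu true F) (hw : Pu true wt)
    (hx : Pu true x) (hl : Pu true l) : Impl fun a => build (F a) (wt a) (x a) (l a) := by
  impl

end Crest.Agent.N325.Pc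
end

-- ▼ part N325/Ds/Impl
section

/-!
# Row 325: the programs of the batch spanner are implementable (helper34)
-/

set_option autoImplicit false

namespace Crest.Agent.N325.Ds

open Bf

instance : Rp Sn := Rp.via fun s => (s.w, s.ix, s.h)
instance : Rp Lv := Rp.via fun s => (s.cnt, s.lm, s.dd, s.sn, s.hl, s.S)
instance : Rp St := Rp.via fun s => (s.al, s.ls, s.bad)

variable {α : Type} [Rp α] {σ : Bool}

@[fun_prop] theorem Sn.pu_w {d : α → Sn} (h : Pu σ d) : Pu σ fun x => (d x).w := by impl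
@[fun_prop] theorem Sn.pu_ix {d : α → Sn} (h : Pu σ d) : Pu σ fun x => (d x).ix := by impl
@[fun_prop] theorem Sn.pu_h {d : α → Sn} (h : Pu σ d) : Pu σ fun x => (d x).h := by impl
@[fun_prop] theorem Lv.pu_cnt {d : α → Lv} (h : Pu σ d) : Pu σ fun x => (d x).cnt := by impl
@[fun_prop] theorem Lv.pu_lm {d : α → Lv} (h : Pu σ d) : Pu σ fun x => (d x).lm := by impl
@[fun_prop] theorem Lv.pu_dd {d : α → Lv} (h : Pu σ d) : Pu σ fun x => (d x).dd := by impl
@[fun_prop] theorem Lv.pu_sn {d : α → Lv} (h : Pu σ d) : Pu σ fun x => (d x).sn := by impl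
@[fun_prop] theorem Lv.pu_hl {d : α → Lv} (h : Pu σ d) : Pu σ fun x => (d x).hl := by impl
@[fun_prop] theorem Lv.pu_S {d : α → Lv} (h : Pu σ d) : Pu σ fun x => (d x).S := by impl
@[fun_prop] theorem St.pu_al {d : α → St} (h : Pu σ d) : Pu σ fun x => (d x).al := by impl
@[fun_prop] theorem St.pu_ls {d : α → St} (h : Pu σ d) : Pu σ fun x => (d x).ls := by impl
@[fun_prop] theorem St.pu_bad {d : α → St} (h : Pu σ d) : Pu σ fun x => (d x).bad := by impl

@[fun_prop] theorem pu_lv0 : Pu σ fun _ : α => lv0 := by unfold lv0; impl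

@[fun_prop] theorem St.pu_cur {d : α → St} (h : Pu σ d) : Pu σ fun x => (d x).cur := by
  unfold St.cur; impl

@[fun_prop] theorem impl_numS {S : α → List ℕ} (h : Pu true S) : Impl fun a => numS (S a) := by
  unfold numS; impl

@[fun_prop] theorem impl_pickE {al h : α → Arr Bool} {C : α → List ℕ} (h1 : Pu true al)
    (h2 : Pu true h) (h3 : Pu true C) : Impl fun a => pickE (al a) (h a) (C a) := by
  unfold pickE; impl

@[fun_prop] theorem pu_pstep {vx nu : α → Arr ℕ} {o : α → ℕ}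
    {s : α → Bool × ℕ × List ℕ × List ℕ} (h1 : Pu true vx) (h2 : Pu true nu) (h3 : Pu true o)
    (h4 : Pu true s) : Pu true fun a => pstep (vx a) (nu a) (o a) (s a) := by
  unfold pstep; impl

@[fun_prop] theorem impl_mkIt {vx nu : α → Arr ℕ} {o : α → ℕ} {w : α → List ℕ}
    {J : α → List It} (h1 : Pu true vx) (h2 : Pu true nu) (h3 : Pu true o) (h4 : Pu true w)
    (h5 : Pu true J) : Impl fun a => mkIt (vx a) (nu a) (o a) (w a) (J a) := by
  unfold mkIt; impl

@[fun_prop] theorem impl_setH {H : α → List ℕ} {h : α → Arr Bool} (h1 : Pu true H)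
    (h2 : Pu true h) : Impl fun a => setH (H a) (h a) := by
  unfold setH; impl

@[fun_prop] theorem pu_push {ix : α → Arr (List ℕ)} {v o : α → ℕ} (h1 : Pu true ix)
    (h2 : Pu true v) (h3 : Pu true o) : Pu true fun a => push (ix a) (v a) (o a) := by
  unfold push; impl

@[fun_prop] theorem impl_setW {vx : α → Arr ℕ} {W : α → List (ℕ × List ℕ)}
    {w ix : α → Arr (List ℕ)} (h1 : Pu true vx) (h2 : Pu true W) (h3 : Pu true w)
    (h4 : Pu true ix) : Impl fun a => setW (vx a) (W a) (w a) (ix a) := by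
  unfold setW; impl

variable {bx : α → BI → R BO}

@[fun_prop] theorem impl_fin {vx nu : α → Arr ℕ} {n P D : α → ℕ} {J : α → List It} {sn : α → Sn}
    (hb : Impl fun p : α × BI => bx p.1 p.2) (h1 : Pu true vx) (h2 : Pu true nu) (h3 : Pu true n)
    (h4 : Pu true P) (h5 : Pu true D) (h6 : Pu true J) (h7 : Pu true sn) :
    Impl fun a => fin (bx a) (vx a) (nu a) (n a) (P a) (D a) (J a) (sn a) := by
  unfold fin; impl

@[fun_prop] theorem impl_recomp {vx : α → Arr ℕ} {al : α → Arr Bool} {P : α → ℕ} {y : α → Lv}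
    (hb : Impl fun p : α × BI => bx p.1 p.2) (h1 : Pu true vx) (h2 : Pu true al) (h3 : Pu true P)
    (h4 : Pu true y) : Impl fun a => recomp (bx a) (vx a) (al a) (P a) (y a) := by
  unfold recomp; impl

/-- one step of the odometer, the recursive call is `k` -/
def goF (bx : BI → R BO) (b : ℕ) (vx : Arr ℕ) (al : Arr Bool)
    (k : List Lv → R (List Lv × List ℕ × List ℕ × List ℕ)) (c : List Lv) :
    R (List Lv × List ℕ × List ℕ × List ℕ) :=
  List.casesOn c (pure ([], [], [], [])) fun x c' => List.casesOn c' (pure ([x], [], [], []))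
    fun y l =>
      if y.cnt < b then
        recomp bx vx al x.lm y >>= fun r =>
          pure (⟨0, x.lm, x.dd, r.1, r.2.1, []⟩ :: ⟨y.cnt + 1, y.lm, y.dd, y.sn, y.hl, y.S⟩ :: l,
            x.hl, r.2.1, r.2.2)
      else
        call k (y :: l) >>= fun r => revAppL x.hl r.2.1 >>= fun out =>
          pure (⟨0, x.lm, x.dd, (r.1.headD x).sn, [], []⟩ :: r.1, out, r.2.2)

theorem go_eq (bx : BI → R BO) (b : ℕ) (vx : Arr ℕ) (al : Arr Bool) (c : List Lv) :
    go bx b vx al c = goF bx b vx al (go bx b vx al) c := by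
  rcases c with _ | ⟨x, _ | ⟨y, l⟩⟩ <;> rfl

@[fun_prop] theorem impl_go {b : α → ℕ} {vx : α → Arr ℕ} {al : α → Arr Bool} {c : α → List Lv}
    (hb : Impl fun p : α × BI => bx p.1 p.2) (h1 : Pu true b) (h2 : Pu true vx) (h3 : Pu true al)
    (h4 : Pu true c) : Impl fun a => go (bx a) (b a) (vx a) (al a) (c a) := by
  have : Impl fun p : α × List Lv => go (bx p.1) (b p.1) (vx p.1) (al p.1) p.2 :=
    Impl.fix (g := fun a => go (bx a) (b a) (vx a) (al a))
      (fun a k c => goF (bx a) (b a) (vx a) (al a) k c) (fun a c => go_eq _ _ _ _ c)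
      (by unfold goF; impl)
  exact this.comp (Pu.id.pair h4)

@[fun_prop] theorem impl_upd {b : α → ℕ} {vx : α → Arr ℕ} {T K : α → List ℕ} {s : α → St}
    (hb : Impl fun p : α × BI => bx p.1 p.2) (h1 : Pu true b) (h2 : Pu true vx) (h3 : Pu true T)
    (h4 : Pu true K) (h5 : Pu true s) : Impl fun a => upd (bx a) (b a) (vx a) (T a) (K a) (s a) := by
  unfold upd; impl

@[fun_prop] theorem impl_wgtR {gt : α → Arr ℤ} {w : α → List ℕ} (h1 : Pu true gt)
    (h2 : Pu true w) : Impl fun a => wgtR (gt a) (w a) := by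
  unfold wgtR; impl

@[fun_prop] theorem impl_tst {gt : α → Arr ℤ} {la : α → Arr ℕ} {th : α → ℕ} {al : α → Arr Bool}
    {sn : α → Sn} {e : α → ℕ} (h1 : Pu true gt) (h2 : Pu true la) (h3 : Pu true th)
    (h4 : Pu true al) (h5 : Pu true sn) (h6 : Pu true e) :
    Impl fun a => tst (gt a) (la a) (th a) (al a) (sn a) (e a) := by
  unfold tst; impl

/-- one step of the scan -/
def scanF (gt : Arr ℤ) (la : Arr ℕ) (th : ℕ) (al : Arr Bool) (sn : Sn)
    (k : List ℕ → R (List ℕ × Option ℕ)) (c : List ℕ) : R (List ℕ × Option ℕ) :=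
  List.casesOn c (.ret ([], none)) fun e l => tst gt la th al sn e >>= fun c =>
    if c = true then pure (l, some e) else call k l

theorem scan_eq (gt : Arr ℤ) (la : Arr ℕ) (th : ℕ) (al : Arr Bool) (sn : Sn) (c : List ℕ) :
    scan gt la th al sn c = call (fun c => List.casesOn c (.ret ([], none)) fun e l =>
      tst gt la th al sn e >>= fun c => if c = true then pure (l, some e)
        else scan gt la th al sn l) c := by
  cases c <;> rfl

@[fun_prop] theorem impl_scan {gt : α → Arr ℤ} {la : α → Arr ℕ} {th : α → ℕ} {al : α → Arr Bool}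
    {sn : α → Sn} {c : α → List ℕ} (h1 : Pu true gt) (h2 : Pu true la) (h3 : Pu true th)
    (h4 : Pu true al) (h5 : Pu true sn) (h6 : Pu true c) :
    Impl fun a => scan (gt a) (la a) (th a) (al a) (sn a) (c a) := by
  let g : α → List ℕ → R (List ℕ × Option ℕ) := fun a c =>
    List.casesOn c (.ret ([], none)) fun e l => tst (gt a) (la a) (th a) (al a) (sn a) e >>=
      fun c => if c = true then pure (l, some e) else scan (gt a) (la a) (th a) (al a) (sn a) l
  have e : ∀ a c, scan (gt a) (la a) (th a) (al a) (sn a) c = call (g a) c := fun a c =>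
    scan_eq _ _ _ _ _ c
  have : Impl fun p : α × List ℕ => g p.1 p.2 :=
    Impl.fix (fun a k c => scanF (gt a) (la a) (th a) (al a) (sn a) k c)
      (fun a c => by simp only [g, scanF, ← e]) (by unfold scanF; impl)
  exact (Impl.call_known (this.comp (Pu.id.pair h6))).of_eq fun a => (e a _).symm

@[fun_prop] theorem impl_probe {gt : α → Arr ℤ} {la : α → Arr ℕ} {th : α → ℕ} {s : α → St}
    (h1 : Pu true gt) (h2 : Pu true la) (h3 : Pu true th) (h4 : Pu true s) :
    Impl fun a => probe (gt a) (la a) (th a) (s a) := by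
  unfold probe; impl

@[fun_prop] theorem impl_build {vx : α → Arr ℕ} {I V : α → List ℕ} {P D0 D1 : α → ℕ}
    {pr : α → List (ℕ × ℕ)} (hb : Impl fun p : α × BI => bx p.1 p.2) (h1 : Pu true vx)
    (h2 : Pu true I) (h3 : Pu true V) (h4 : Pu true P) (h5 : Pu true D0) (h6 : Pu true D1)
    (h7 : Pu true pr) :
    Impl fun a => build (bx a) (vx a) (I a) (V a) (P a) (D0 a) (D1 a) (pr a) := by
  unfold build; impl

end Crest.Agent.N325.Ds
end

-- ▼ part N325/Sg/Impl
section

/-! # Row 325 (helper64): the programs of the stage are implementable -/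

set_option autoImplicit false

namespace Crest.Agent.N325.Sg

open Tw Lt

instance instRpPr {A : Type} [Rp A] : Rp (Pr A) :=
  Rp.via fun p => (p.a, p.P, p.K0, p.fu, p.Q, p.th1, p.b, p.P0, p.D0, p.D1, p.pr)
instance : Rp Fx := Rp.via fun X => (X.T, X.nO, X.ob, X.oe, X.en, X.gt, X.la, X.cls)
instance : Rp Dn := Rp.via fun d => (d.ed, d.og, d.pc, d.vx, d.ds, d.pub, d.pt, d.lv)

variable {α A : Type} [Rp α] [Rp A]

section fields
variable {σ : Bool} {p : α → Pr A} {X : α → Fx} {d : α → Dn}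
@[fun_prop] theorem Pr.pu_a (h : Pu σ p) : Pu σ fun a => (p a).a := by impl
@[fun_prop] theorem Pr.pu_P (h : Pu σ p) : Pu σ fun a => (p a).P := by impl
@[fun_prop] theorem Pr.pu_K0 (h : Pu σ p) : Pu σ fun a => (p a).K0 := by impl
@[fun_prop] theorem Pr.pu_fu (h : Pu σ p) : Pu σ fun a => (p a).fu := by impl
@[fun_prop] theorem Pr.pu_Q (h : Pu σ p) : Pu σ fun a => (p a).Q := by impl
@[fun_prop] theorem Pr.pu_th1 (h : Pu σ p) : Pu σ fun a => (p a).th1 := by impl
@[fun_prop] theorem Pr.pu_b (h : Pu σ p) : Pu σ fun a => (p a).b := by impl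
@[fun_prop] theorem Pr.pu_P0 (h : Pu σ p) : Pu σ fun a => (p a).P0 := by impl
@[fun_prop] theorem Pr.pu_D0 (h : Pu σ p) : Pu σ fun a => (p a).D0 := by impl
@[fun_prop] theorem Pr.pu_D1 (h : Pu σ p) : Pu σ fun a => (p a).D1 := by impl
@[fun_prop] theorem Pr.pu_pr (h : Pu σ p) : Pu σ fun a => (p a).pr := by impl
@[fun_prop] theorem Fx.pu_T (h : Pu σ X) : Pu σ fun a => (X a).T := by impl
@[fun_prop] theorem Fx.pu_nO (h : Pu σ X) : Pu σ fun a => (X a).nO := by impl
@[fun_prop] theorem Fx.pu_ob (h : Pu σ X) : Pu σ fun a => (X a).ob := by impl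
@[fun_prop] theorem Fx.pu_oe (h : Pu σ X) : Pu σ fun a => (X a).oe := by impl
@[fun_prop] theorem Fx.pu_en (h : Pu σ X) : Pu σ fun a => (X a).en := by impl
@[fun_prop] theorem Fx.pu_gt (h : Pu σ X) : Pu σ fun a => (X a).gt := by impl
@[fun_prop] theorem Fx.pu_la (h : Pu σ X) : Pu σ fun a => (X a).la := by impl
@[fun_prop] theorem Fx.pu_cls (h : Pu σ X) : Pu σ fun a => (X a).cls := by impl
@[fun_prop] theorem Dn.pu_ed (h : Pu σ d) : Pu σ fun a => (d a).ed := by impl
@[fun_prop] theorem Dn.pu_og (h : Pu σ d) : Pu σ fun a => (d a).og := by impl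
@[fun_prop] theorem Dn.pu_pc (h : Pu σ d) : Pu σ fun a => (d a).pc := by impl
@[fun_prop] theorem Dn.pu_vx (h : Pu σ d) : Pu σ fun a => (d a).vx := by impl
@[fun_prop] theorem Dn.pu_ds (h : Pu σ d) : Pu σ fun a => (d a).ds := by impl
@[fun_prop] theorem Dn.pu_pub (h : Pu σ d) : Pu σ fun a => (d a).pub := by impl
@[fun_prop] theorem Dn.pu_pt (h : Pu σ d) : Pu σ fun a => (d a).pt := by impl
@[fun_prop] theorem Dn.pu_lv (h : Pu σ d) : Pu σ fun a => (d a).lv := by impl
end fields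

variable {p : α → Pr A} {X : α → Fx} {d : α → Dn} {Q n e : α → ℕ} {l m : α → List ℕ}
  {w : α → Wo}

@[fun_prop] theorem pu_objT {ed : α → Arr Ed} {pub : α → Arr Bool} (hX : Pu true X)
    (h1 : Pu true ed) (h2 : Pu true pub) (hn : Pu true n) :
    Pu true fun a => objT (X a) (ed a) (pub a) (n a) := by impl

@[fun_prop] theorem pu_ptT {ed : α → Arr Ed} {pt : α → Arr (Option (ℕ × ℕ))} (hQ : Pu true Q)
    (h1 : Pu true ed) (h2 : Pu true pt) (hn : Pu true n) :
    Pu true fun a => ptT (Q a) (ed a) (pt a) (n a) := by impl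

@[fun_prop] theorem impl_tbR (hQ : Pu true Q) (hX : Pu true X) (hd : Pu true d) (hn : Pu true n) :
    Impl fun a => tbR (Q a) (X a) (d a) (n a) := by impl

@[fun_prop] theorem impl_obj1 {ed : α → Arr Ed} {x : α → Ob} (h1 : Pu true ed) (h2 : Pu true x)
    (hX : Pu true X) : Impl fun a => obj1 (ed a) (x a) (X a) := by impl

@[fun_prop] theorem impl_fxR {ed : α → Arr Ed} {T : α → LF} (h1 : Pu true ed) (h2 : Pu true T) :
    Impl fun a => fxR (ed a) (T a) := by impl

@[fun_prop] theorem impl_reVx {rt vx : α → Arr ℕ} (hX : Pu true X) (h1 : Pu true rt)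
    (hl : Pu true l) (h2 : Pu true vx) : Impl fun a => reVx (X a) (rt a) (l a) (vx a) := by impl

@[fun_prop] theorem impl_mark {pc : α → Pc.St} {vx : α → Arr ℕ} (hX : Pu true X) (hl : Pu true l)
    (h1 : Pu true pc) (h2 : Pu true vx) : Impl fun a => mark (X a) (l a) (pc a) (vx a) := by impl

@[fun_prop] theorem impl_pub1 (hX : Pu true X) (hn : Pu true n) (he : Pu true e) (hw : Pu true w) :
    Impl fun a => pub1 (X a) (n a) (e a) (w a) := by impl

@[fun_prop] theorem impl_unp1 (he : Pu true e) (hw : Pu true w) :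
    Impl fun a => unp1 (e a) (w a) := by impl

@[fun_prop] theorem impl_fin (hQ : Pu true Q) (hX : Pu true X) (hd : Pu true d) (hw : Pu true w) :
    Impl fun a => fin (Q a) (X a) (d a) (w a) := by impl

@[fun_prop] theorem impl_cvR {T : α → LF} {P : α → Pm} (h1 : Pu true T) (h2 : Pu true P)
    (hn : Pu true n) : Impl fun a => cvR (T a) (P a) (n a) := by impl

@[fun_prop] theorem impl_pairs {t : α → ℕ × Arr (Option (ℕ × ℕ)) × List ℕ} (hl : Pu true l)
    (hm : Pu true m) (ht : Pu true t) : Impl fun a => pairs (l a) (m a) (t a) := by impl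

@[fun_prop] theorem impl_clear {pt : α → Arr (Option (ℕ × ℕ))} (hQ : Pu true Q) (hn : Pu true n)
    (ht : Pu true pt) : Impl fun a => clear (Q a) (n a) (pt a) := by impl

variable {lf : A → List (ℕ × Ed) → R LF} {bx : A → Arr ℕ → Ds.BI → R Ds.BO}

theorem impl_cutR (hb : Impl fun q : A × Arr ℕ × Ds.BI => bx q.1 q.2.1 q.2.2) :
    Impl fun q : Pr A × Fx × Dn × List ℕ × List ℕ =>
      cutR bx q.1 q.2.1 q.2.2.1 q.2.2.2.1 q.2.2.2.2 := by
  unfold cutR; impl

/-- **the stage is implementable** -/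
theorem stageImpl (hl : Impl fun q : A × List (ℕ × Ed) => lf q.1 q.2)
    (hb : Impl fun q : A × Arr ℕ × Ds.BI => bx q.1 q.2.1 q.2.2) : StageImpl (stage lf bx) := by
  have hc := impl_cutR hb
  obtain ⟨ct, e1⟩ : ∃ ct : Pr A → Fx → Dn → List ℕ → List ℕ → R (Arr ℕ × Ds.St × Wo),
    cutR bx = ct := ⟨_, rfl⟩
  refine ⟨?_, ?_, ?_⟩
  · change Impl fun q : Pr A × List (ℕ × Ed) => build lf bx q.1 q.2
    unfold build; impl
  · change Impl fun q : St A × Op => upd bx q.1 q.2
    unfold upd delO delN insN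
    simp only [e1] at hc ⊢
    impl
  · change Impl fun s : St A => probe s
    unfold probe; impl

end Crest.Agent.N325.Sg
end

-- ▼ part N325/Sg/PkR

/-! # Row 325 (helper64): the program that computes the parameters of a level -/

set_option autoImplicit false

namespace Crest.Agent.N325.Sg.Pk

open Tw Lt Filter

/-- the lift -/
def lf (a : Ap) (l : List (ℕ × Ed)) : R LF := liftR a.1 a.1.s a.2.1 a.2.2.1 l
/-- the box -/
def bx (a : Ap) (cls : Arr ℕ) (i : Ds.BI) : R Ds.BO := Bf.box cls a.2.1 a.2.2.2 a.1.D i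

theorem impl_stage : StageImpl (stage lf bx) :=
  stageImpl (by unfold lf; impl) (by unfold bx; impl)

/-- an unused level -/
def lv0 (p : Pr Ap) (lim : ℕ) : Lv (St Ap) (Pr Ap) :=
  blank (p, ⟨⟨[], Arr.cst 0, Arr.cst none, Arr.cst 0, Arr.cst 0, Arr.cst 0, Arr.cst [], Arr.cst [],
      Arr.cst [], []⟩, 0, Arr.cst (0, 0, 0, 0), Arr.cst [], Arr.cst [], Arr.cst 0, Arr.cst 0,
      Arr.cst 0⟩,
    ⟨Arr.cst ⟨0, 0, 0, 0⟩, Arr.cst false,
      ⟨Arr.cst false, Arr.cst [], Arr.cst 0, Arr.cst 0, Arr.cst 0, Arr.cst 0, Arr.cst []⟩,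
      Arr.cst 0, ⟨Arr.cst false, [], []⟩, Arr.cst false, Arr.cst none, Arr.cst false⟩) p lim

/-- the parameters of the lift and of the box -/
def apR (c N : ℕ) : R Ap :=
  lg2 N >>= fun l => levR N >>= fun v => nat ((c + 5) * (l + 2)) >>= fun lg => powR v 2 >>= fun T =>
  powR 2 (lg / T + 1) >>= fun bb => powR lg T >>= fun S => powR 2 lg >>= fun M =>
  nat (8 * lg) >>= fun β => nat (8 * lg + bb) >>= fun ρ => powR ρ T >>= fun u =>
  nat (M + 2 * ((T + 1) * (β * u + 1))) >>= fun z => nat (N + 2) >>= fun x =>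
  powR x (c + 2) >>= fun LB => pure (⟨lg, T, S, ρ, β⟩, z.size + 1, LB, bb)

/-- **the level number `x.2`** -/
def par (c : ℕ) (x : ℕ × ℕ) : R (Lv (St Ap) (Pr Ap)) :=
  apR c x.1 >>= fun a => levR x.1 >>= fun v => nat (2 * a.1.s + 1) >>= fun r0 =>
  nat (128 * (x.1 + 1)) >>= fun mm => rtR v mm >>= fun r =>
  nat (640 * (a.2.1 * a.2.2.2 * (3 * a.1.D * r0 + 1)) * (a.1.D + 3) * (a.1.D + 1) * a.1.S * r) >>=
    fun K0 =>
  nat (1 + (a.1.s + 2) * K0) >>= fun K => nat (K * a.1.S) >>= fun D0 =>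
  gamR a.1.D a.1.D r0 >>= fun γ => prR a.1.D a.1.D γ D0 >>= fun q => lmR a.1.D a.1.D >>= fun LM =>
  nat ((a.1.D + 1) * (4 * a.1.s) * (1 + 4 * (a.1.β + 1) * a.1.ρ) * (4 * LM + 2)) >>= fun A =>
  powR A x.2 >>= fun u => nat ((2 * LM + 1) * u) >>= fun th1 => powR a.1.S 2 >>= fun Q =>
  powR r x.2 >>= fun lim =>
  pure (lv0 ⟨a, a.1, K0, K + 1, Q, th1, a.2.2.2, q.1, D0, q.2.1, q.2.2⟩ lim)

theorem impl_apR (c : ℕ) : Impl (apR c) := by
  unfold apR; impl

theorem impl_par (c : ℕ) : Impl (par c) := by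
  have := impl_apR c
  unfold par; impl

section
variable (c N : ℕ)

/-- a bound on the numbers computed by `par` -/
def ZB : ℕ := 8 * lg c N + bb c N + T N + (P c N).S + (P c N).S ^ 2 + (P c N).ρ ^ T N +
  (2 ^ lg c N + 2 * (P c N).Hb) + (N + 2) + LB c N + (2 * mm N + 2) + K0 c N + K c N + D0 c N +
  γ c N + LM N + ddF (γ c N) (D0 c N) (T N) + A c N + (2 * LM N + 1) * A c N ^ lev N +
  r N ^ lev N + 1

/-- the time of `par` -/
def tP : ℕ :=
  10 * Nat.log 2 N + 2 * lg c N + 12 * T N + 2 * Nat.log 2 (mm N) + 2 * lev N + c + 50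

end

theorem lg_pos (c N : ℕ) : 0 < lg c N := by unfold lg; positivity

theorem A_pos (c N : ℕ) : 0 < A c N := by
  have := lg_pos c N
  simp only [A, Pm.al, P]; positivity

theorem pb_ZB (c : ℕ) : PolyB (ZB c) := by
  have := (qp_lg c).subL.subQ.polyB; have := (sl_bb c).subQ.polyB
  have := ty_T.qp.subL.subQ.polyB; have := (qp_S c).subL.subQ.polyB
  have := pb_M c; have h := pb_Hb c
  have : PolyB fun N => (P c N).ρ ^ T N := h.mono fun N => by
    have := lg_pos c N
    exact (Nat.le_mul_of_pos_left _ (by positivity : 0 < 8 * lg c N)).trans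
      ((Nat.le_succ _).trans (Nat.le_mul_of_pos_left _ (Nat.succ_pos _)))
  have : PolyB (LB c) := by unfold LB; fun_prop
  have hm : PolyB mm := by unfold mm; fun_prop
  have : PolyB (K0 c) := ((sl_k0 c).subQ.mul sq_r).polyB
  have := (sq_K c).polyB; have := (sq_D0 c).polyB; have := (qp_γ c).subL.subQ.polyB
  have := qp_LM.subL.subQ.polyB; have := (subQ_ddF (qp_γ c) ty_T (sq_D0 c)).polyB
  have := (sl_A c).pow_lev.polyB; have := (sl_A c).subQ.polyB
  have : PolyB fun N => r N ^ lev N := PolyB.rt_pow_lev hm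
  unfold ZB; fun_prop

theorem sq_tP (c : ℕ) : SubQ (tP c) := by
  have := (qp_lg c).subL.subQ; have := ty_T.qp.subL.subQ
  have : SubQ fun N => Nat.log 2 (mm N) :=
    (QP.log_of (G := mm) (by unfold mm; fun_prop)).subL.subQ
  unfold tP; fun_prop

variable {g : Gl} {c N : ℕ}

theorem sp_apR (h : ZB c N ≤ g.X) : Sp g (apR c N) fun a t =>
    a = (P c N, La c N, LB c N, bb c N) ∧ t ≤ 5 * Nat.log 2 N + 2 * lg c N + 2 * T N + c + 16 := by
  have h0 := lg_pos c N
  have h9 : 0 < 2 ^ lg c N := by positivity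
  have h1 := Nat.div_le_self (lg c N) (T N)
  unfold ZB at h
  refine (sp_lg2 N).bind ?_
  rintro _ t1 ⟨rfl, e1⟩
  refine (sp_levR N).bind ?_
  rintro _ t2 ⟨rfl, e2⟩
  refine sp_bind.2 (sp_nat.2 ⟨show lg c N ≤ _ by omega, ?_⟩)
  refine (sp_powR (lev_pos N) (show T N ≤ _ by omega)).bind ?_
  rintro _ t3 ⟨rfl, e3⟩
  refine (sp_powR one_le_two (show bb c N ≤ _ by omega)).bind ?_
  rintro _ t4 ⟨rfl, e4⟩
  refine (sp_powR h0 (show (P c N).S ≤ _ by omega)).bind ?_
  rintro _ t5 ⟨rfl, e5⟩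
  refine (sp_powR one_le_two (show 2 ^ lg c N ≤ _ by omega)).bind ?_
  rintro _ t6 ⟨rfl, e6⟩
  refine sp_bind.2 (sp_nat.2 ⟨show 8 * lg c N ≤ _ by omega, ?_⟩)
  refine sp_bind.2 (sp_nat.2 ⟨show 8 * lg c N + bb c N ≤ _ by omega, ?_⟩)
  refine (sp_powR (show 1 ≤ 8 * lg c N + bb c N by omega)
    (show (P c N).ρ ^ T N ≤ _ by omega)).bind ?_
  rintro _ t7 ⟨rfl, e7⟩
  refine sp_bind.2 (sp_nat.2 ⟨show 2 ^ lg c N + 2 * (P c N).Hb ≤ _ by omega, ?_⟩)
  refine sp_bind.2 (sp_nat.2 ⟨by omega, ?_⟩)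
  refine (sp_powR (by omega) (show LB c N ≤ _ by omega)).bind ?_
  rintro _ t8 ⟨rfl, e8⟩
  refine sp_pure.2 ⟨rfl, ?_⟩
  change t4 ≤ lg c N / T N + 1 + 1 at e4
  change t5 ≤ T N + 1 at e5
  change t7 ≤ T N + 1 at e7
  omega

theorem sp_par (h : ZB c N ≤ g.X) {i : ℕ} (hi : i ≤ lev N) :
    Sp g (par c (N, i)) fun v t => v.p = ps c N i ∧ v.lim = r N ^ i ∧ t ≤ tP c N := by
  have h0 := lg_pos c N
  have h9 : 0 < 2 ^ lg c N := by positivity
  have h1 : A c N ^ i ≤ A c N ^ lev N := Nat.pow_le_pow_right (A_pos c N) hi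
  have h2 := Nat.mul_le_mul_left (2 * LM N + 1) h1
  have h3 : A c N ^ i ≤ (2 * LM N + 1) * A c N ^ i := Nat.le_mul_of_pos_left _ (Nat.succ_pos _)
  have h4 : 1 ≤ r N := one_le_two.trans (two_le_rt _ _)
  have h5 : r N ^ i ≤ r N ^ lev N := Nat.pow_le_pow_right h4 hi
  refine (sp_apR h).bind ?_
  rintro _ t1 ⟨rfl, e1⟩
  unfold ZB at h
  refine (sp_levR N).bind ?_
  rintro _ t2 ⟨rfl, e2⟩
  refine sp_bind.2 (sp_nat.2 ⟨show 2 * lg c N + 1 ≤ _ by omega, ?_⟩)
  refine sp_bind.2 (sp_nat.2 ⟨show mm N ≤ _ by omega, ?_⟩)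
  refine (sp_rtR (show 2 * mm N + 2 ≤ _ by omega)).bind ?_
  rintro _ t3 ⟨rfl, e3⟩
  refine sp_bind.2 (sp_nat.2 ⟨show K0 c N ≤ _ by omega, ?_⟩)
  refine sp_bind.2 (sp_nat.2 ⟨show K c N ≤ _ by omega, ?_⟩)
  refine sp_bind.2 (sp_nat.2 ⟨show D0 c N ≤ _ by omega, ?_⟩)
  refine (sp_gamR (T_pos N) (Nat.succ_pos _) (show γ c N ≤ _ by omega)).bind ?_
  rintro _ t4 ⟨rfl, e4⟩
  refine (sp_prR (show LM N ≤ _ by omega) (show ddF (γ c N) (D0 c N) (T N) ≤ _ by omega)).bind ?_
  rintro _ t5 ⟨rfl, e5⟩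
  refine (sp_lmR (show LM N ≤ _ by omega)).bind ?_
  rintro _ t6 ⟨rfl, e6⟩
  refine sp_bind.2 (sp_nat.2 ⟨show A c N ≤ _ by omega, ?_⟩)
  refine (sp_powR (A_pos c N) (show A c N ^ i ≤ _ by omega)).bind ?_
  rintro _ t7 ⟨rfl, e7⟩
  refine sp_bind.2 (sp_nat.2 ⟨show (2 * LM N + 1) * A c N ^ i ≤ _ by omega, ?_⟩)
  refine (sp_powR (Nat.one_le_pow _ _ h0) (show (P c N).S ^ 2 ≤ _ by omega)).bind ?_
  rintro _ t8 ⟨rfl, e8⟩
  refine (sp_powR h4 (show r N ^ i ≤ _ by omega)).bind ?_
  rintro _ t9 ⟨rfl, e9⟩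
  refine sp_pure.2 ⟨rfl, rfl, ?_⟩
  change t3 ≤ 2 * Nat.log 2 (mm N) + 3 at e3
  change t4 ≤ 2 * T N + T N + 5 at e4
  change t5 ≤ T N + 2 * T N + 4 at e5
  change t6 ≤ T N + T N + 4 at e6
  unfold tP
  omega

end Crest.Agent.N325.Sg.Pk
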